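import Vale.Agent.P067.Local.Cocycle

/-!
# Cosystolic expansion of the skeleton of a complex with expanding links
-/

namespace Vale.P067.Local

open Finset

variable {V : Type} [DecidableEq V] {T : Finset (Finset V)} {N : ℕ}

/-- Number of incidences (top face, face in the support). -/
def cnt (T : Finset (Finset V)) (k : ℕ) (f : Finset V → ZMod 2) : ℕ :=
  ∑ t ∈ T, ((t.powersetCard k).filter fun S => f S ≠ 0).card

lemma avg_supp (hT : Uniform T N) (k : ℕ) (f : Finset V → ZMod 2) :
    avg T k (supp f) = (cnt T k f : ℝ) / ((T.card : ℝ) * (N.choose k : ℕ)) := by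
  rw [avg_eq hT, cnt, Nat.cast_sum]
  congr 1
  refine sum_congr rfl fun t _ => ?_
  rw [card_eq_sum_ones, Nat.cast_sum, sum_filter]
  exact sum_congr rfl fun S _ => by by_cases h : f S = 0 <;> simp [supp, h]

lemma norm_eq_avg (T : Finset (Finset V)) (d i : ℕ) (hT : Uniform T (d + 1))
    (f : Finset V → ZMod 2) : Vale.P067.norm T d i f = avg T (i + 1) (supp f) := by
  rw [avg_eq hT, ← sum_star_flat T (i + 1) (fun σ _ => supp f σ), sum_div, Vale.P067.norm, sum_filter]
  refine sum_congr rfl fun σ _ => ?_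
  by_cases h : f σ = 0 <;> simp [supp, h, weight, mul_comm]

lemma delta_add (k : ℕ) (f g : Finset V → ZMod 2) : delta k (f + g) = delta k f + delta k g := by
  funext τ; simp [delta, sum_add_distrib]

lemma delta_delta (k : ℕ) (g : Finset V → ZMod 2) {τ : Finset V} (hτ : τ.card = k + 2) :
    delta (k + 1) (delta k g) τ = 0 := by
  rw [delta, sum_congr rfl (fun S hS => delta_eq_erase k g (mem_powersetCard.1 hS).2),
    sum_erase_reindex τ k (fun ρ _ => g ρ)]
  refine sum_eq_zero fun ρ hρ => ?_
  obtain ⟨hs, hc⟩ := mem_powersetCard.1 hρ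
  rw [sum_const, card_sdiff_of_subset hs, hτ, hc, show k + 2 - k = 2 by omega, two_nsmul]
  exact CharTwo.add_self_eq_zero _

/-- Extension by zero from the link of `σ`. -/
def extend (σ : Finset V) (g : Finset V → ZMod 2) (S : Finset V) : ZMod 2 :=
  if σ ⊆ S then g (S \ σ) else 0

lemma delta_extend (σ : Finset V) (g : Finset V → ZMod 2) (m : ℕ) {S : Finset V}
    (hS : S.card = σ.card + m + 1) :
    delta (σ.card + m) (extend σ g) S = if σ ⊆ S then delta m g (S \ σ) else 0 := by
  split_ifs with hσ
  · rw [delta, delta]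
    unfold extend
    rw [← sum_filter]
    refine sum_bij' (fun s _ => s \ σ) (fun r _ => σ ∪ r) ?_ ?_ ?_ ?_ (fun _ _ => rfl)
    · intro s hs
      simp only [mem_filter, mem_powersetCard] at hs ⊢
      exact ⟨sdiff_subset_sdiff hs.1.1 (subset_refl _), by
        rw [card_sdiff_of_subset hs.2, hs.1.2]; omega⟩
    · intro r hr
      simp only [mem_filter, mem_powersetCard] at hr ⊢
      have hd : Disjoint σ r := disjoint_left.2 fun x hx hr' => (mem_sdiff.1 (hr.1 hr')).2 hx
      exact ⟨⟨union_subset hσ (hr.1.trans sdiff_subset), by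
        rw [card_union_of_disjoint hd, hr.2]⟩, subset_union_left⟩
    · intro s hs
      simp only [mem_filter] at hs
      exact union_sdiff_of_subset hs.2
    · intro r hr
      simp only [mem_powersetCard] at hr
      have hd : Disjoint σ r := disjoint_left.2 fun x hx hr' => (mem_sdiff.1 (hr.1 hr')).2 hx
      exact union_sdiff_cancel_left hd
  · refine sum_eq_zero fun s hs => if_neg fun h => hσ (h.trans (mem_powersetCard.1 hs).1)

/-- Incidences split at a face. -/
lemma cnt_split (T : Finset (Finset V)) (σ : Finset V) (k : ℕ) (f : Finset V → ZMod 2) :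
    cnt T (σ.card + k) f
      = (∑ t ∈ T, ((t.powersetCard (σ.card + k)).filter fun S => f S ≠ 0 ∧ ¬ σ ⊆ S).card)
        + cnt (link T σ) k (fun R => f (σ ∪ R)) := by
  have e : cnt (link T σ) k (fun R => f (σ ∪ R))
      = ∑ t ∈ T, ((t.powersetCard (σ.card + k)).filter fun S => f S ≠ 0 ∧ σ ⊆ S).card := by
    rw [cnt, sum_link, star, sum_filter]
    refine sum_congr rfl fun t _ => ?_
    split_ifs with ht
    · refine card_bij' (fun R _ => σ ∪ R) (fun S _ => S \ σ) ?_ ?_ ?_ ?_
      · intro R hR
        simp only [coe_filter, Set.mem_ofPred_eq, mem_filter, mem_powersetCard] at hR ⊢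
        have hd : Disjoint σ R := disjoint_left.2 fun x hx hr' => (mem_sdiff.1 (hR.1.1 hr')).2 hx
        exact ⟨⟨union_subset ht (hR.1.1.trans sdiff_subset),
          by rw [card_union_of_disjoint hd, hR.1.2]⟩, hR.2, subset_union_left⟩
      · intro S hS
        simp only [coe_filter, Set.mem_ofPred_eq, mem_filter, mem_powersetCard] at hS ⊢
        exact ⟨⟨sdiff_subset_sdiff hS.1.1 (subset_refl _),
          by rw [card_sdiff_of_subset hS.2.2, hS.1.2]; omega⟩,
          by rw [union_sdiff_of_subset hS.2.2]; exact hS.2.1⟩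
      · intro R hR
        simp only [coe_filter, Set.mem_ofPred_eq, mem_filter, mem_powersetCard] at hR
        exact union_sdiff_cancel_left
          (disjoint_left.2 fun x hx hr' => (mem_sdiff.1 (hR.1.1 hr')).2 hx)
      · intro S hS
        simp only [coe_filter, Set.mem_ofPred_eq, mem_filter, mem_powersetCard] at hS
        exact union_sdiff_of_subset hS.2.2
    · symm
      rw [card_eq_zero, filter_eq_empty_iff]
      intro S hS h
      exact ht (h.2.trans (mem_powersetCard.1 hS).1)
  rw [e, cnt, ← sum_add_distrib]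
  refine sum_congr rfl fun t _ => ?_
  rw [← card_filter_add_card_filter_not (s := (t.powersetCard (σ.card + k)).filter fun S => f S ≠ 0)
    (fun S => σ ⊆ S), filter_filter, filter_filter, Nat.add_comm]

lemma cnt_congr {T : Finset (Finset V)} {k : ℕ} {f g : Finset V → ZMod 2}
    (h : ∀ S ∈ faces T k, f S = g S) : cnt T k f = cnt T k g := by
  refine sum_congr rfl fun t ht => congrArg _ (filter_congr fun S hS => ?_)
  rw [h S (mem_biUnion.2 ⟨t, ht, hS⟩)]

lemma cnt_eq_zero {T : Finset (Finset V)} {k : ℕ} {f : Finset V → ZMod 2} (h : cnt T k f = 0) :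
    ∀ S ∈ faces T k, f S = 0 := by
  intro S hS
  obtain ⟨t, ht, hSt⟩ := mem_biUnion.1 hS
  have := (sum_eq_zero_iff.1 h) t ht
  rw [card_eq_zero, filter_eq_empty_iff] at this
  simpa using this hSt

lemma cnt_add_le (T : Finset (Finset V)) (k : ℕ) (f g : Finset V → ZMod 2) :
    cnt T k (f + g) ≤ cnt T k f + cnt T k g := by
  rw [cnt, cnt, cnt, ← sum_add_distrib]
  refine sum_le_sum fun t _ => le_trans (card_le_card fun S hS => ?_) (card_union_le _ _)
  simp only [mem_filter, mem_union, Pi.add_apply] at hS ⊢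
  by_cases h : f S = 0
  · right; refine ⟨hS.1, fun h' => hS.2 ?_⟩; rw [h, h', add_zero]
  · left; exact ⟨hS.1, h⟩

/-- Greedy local minimisation, with control on the correction. -/
lemma exists_locMin (hT : Uniform T N) {Q : ℕ} (hQ : ∀ v : V, (star T {v}).card ≤ Q) (i : ℕ) :
    ∀ f : Finset V → ZMod 2, ∃ y : Finset V → ZMod 2, LocMin T i (f + delta i y) ∧
      cnt T (i + 1) (f + delta i y) ≤ cnt T (i + 1) f ∧
      cnt T i y ≤ Q * 2 ^ N * cnt T (i + 1) f := by
  intro f
  induction hn : cnt T (i + 1) f using Nat.strong_induction_on generalizing f with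
  | _ n ih =>
    by_cases hmin : LocMin T i f
    · refine ⟨0, ?_, ?_, ?_⟩
      · rwa [show f + delta i 0 = f by funext τ; simp [delta]]
      · rw [show f + delta i 0 = f by funext τ; simp [delta], hn]
      · simp [cnt]
    · simp only [LocMin] at hmin
      push Not at hmin
      obtain ⟨a, k, ha, hk, hak, σ, hσ, g, hg⟩ := hmin
      obtain ⟨t₀, ht₀, hσt, hσc⟩ := mem_faces.1 hσ
      set Y := extend σ g
      obtain ⟨m, rfl⟩ : ∃ m, k = m + 1 := ⟨k - 1, by omega⟩
      simp only [Nat.add_sub_cancel] at hg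
      have hi : i = σ.card + m := by omega
      have hloc : cnt (link T σ) (m + 1) (fun R => (f + delta i Y) (σ ∪ R))
          = cnt (link T σ) (m + 1) ((fun S => f (σ ∪ S)) + delta m g) := by
        refine cnt_congr fun R hR => ?_
        obtain ⟨r, hr, hRr, hRc⟩ := mem_faces.1 hR
        obtain ⟨t, -, -, rfl⟩ := mem_link.1 hr
        have hd : Disjoint σ R := disjoint_left.2 fun x hx hR' => (mem_sdiff.1 (hRr hR')).2 hx
        simp only [Pi.add_apply, Y]
        rw [hi, delta_extend σ g m (by rw [card_union_of_disjoint hd, hRc]; omega),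
          if_pos subset_union_left, union_sdiff_cancel_left hd]
      have hlt : cnt T (i + 1) (f + delta i Y) < n := by
        rw [← hn, show i + 1 = σ.card + (m + 1) by omega, cnt_split, cnt_split, hloc]
        refine Nat.add_lt_add_of_le_of_lt (le_of_eq (sum_congr rfl fun t _ => congrArg _
          (filter_congr fun S hS => ?_))) ?_
        · constructor
          · rintro ⟨h, hns⟩
            rw [Pi.add_apply, show delta i Y S = 0 by
              rw [hi, delta_extend σ g m (by rw [(mem_powersetCard.1 hS).2]; omega), if_neg hns],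
              add_zero] at h
            exact ⟨h, hns⟩
          · rintro ⟨h, hns⟩
            rw [Pi.add_apply, show delta i Y S = 0 by
              rw [hi, delta_extend σ g m (by rw [(mem_powersetCard.1 hS).2]; omega), if_neg hns],
              add_zero]
            exact ⟨h, hns⟩
        · rw [avg_supp (hT.link σ), avg_supp (hT.link σ)] at hg
          have hd := lt_of_le_of_lt (le_refl _) hg
          by_contra hle
          push Not at hle
          exact absurd hd (not_lt.2 (div_le_div_of_nonneg_right (by exact_mod_cast hle)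
            (by positivity)))
      obtain ⟨y, hy1, hy2, hy3⟩ := ih _ hlt (f + delta i Y) rfl
      have e : f + delta i (Y + y) = f + delta i Y + delta i y := by rw [delta_add, add_assoc]
      refine ⟨Y + y, ?_, ?_, ?_⟩
      · rwa [e]
      · rw [e]; omega
      · have hY : cnt T i Y ≤ Q * 2 ^ N := by
          obtain ⟨v, hv⟩ := card_pos.1 (show 0 < σ.card by omega)
          calc cnt T i Y ≤ ∑ t ∈ T, if σ ⊆ t then 2 ^ N else 0 := by
                refine sum_le_sum fun t ht => ?_
                split_ifs with hs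
                · refine (card_filter_le _ _).trans ?_
                  rw [card_powersetCard, hT t ht]
                  exact Nat.choose_le_two_pow _ _
                · rw [Nat.le_zero, card_eq_zero, filter_eq_empty_iff]
                  intro S hS h
                  refine h (if_neg fun hσS => hs (hσS.trans (mem_powersetCard.1 hS).1))
            _ = (star T σ).card * 2 ^ N := by rw [← sum_filter, sum_const, smul_eq_mul, star]
            _ ≤ Q * 2 ^ N := by
                refine Nat.mul_le_mul_right _ (le_trans (card_le_card fun t ht => ?_) (hQ v))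
                simp only [star, mem_filter, singleton_subset_iff] at ht ⊢
                exact ⟨ht.1, ht.2 hv⟩
        have h1 := (cnt_add_le T i Y y).trans (Nat.add_le_add hY hy3)
        refine h1.trans ?_
        calc Q * 2 ^ N + Q * 2 ^ N * cnt T (i + 1) (f + delta i Y)
            = Q * 2 ^ N * (cnt T (i + 1) (f + delta i Y) + 1) := by ring
          _ ≤ Q * 2 ^ N * n := Nat.mul_le_mul_left _ hlt

lemma skeleton_uniform (T : Finset (Finset V)) (d : ℕ) : Uniform (skeleton T d) (d + 1) := by
  intro s hs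
  obtain ⟨t, -, -, hc⟩ := mem_faces.1 hs
  exact hc

lemma faces_skeleton (hT : Uniform T N) {d k : ℕ} (hk : k ≤ d + 1) (hN : d + 1 ≤ N) :
    faces (skeleton T d) k = faces T k := by
  ext s
  simp only [mem_faces, skeleton]
  constructor
  · rintro ⟨u, ⟨t, ht, hut, huc⟩, hsu, hc⟩
    exact ⟨t, ht, hsu.trans hut, hc⟩
  · rintro ⟨t, ht, hst, hc⟩
    obtain ⟨u, hsu, hut, huc⟩ := exists_subsuperset_card_eq hst (n := d + 1) (by omega)
      (by rw [hT t ht]; omega)
    exact ⟨u, ⟨t, ht, hut, huc⟩, hsu, hc⟩

lemma cnt_eq_sum (T : Finset (Finset V)) (k : ℕ) (f : Finset V → ZMod 2) :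
    cnt T k f = ∑ σ ∈ faces T k, if f σ = 0 then 0 else (star T σ).card := by
  have e : ∀ σ ∈ faces T k, (if f σ = 0 then 0 else (star T σ).card)
      = ∑ t ∈ star T σ, if f σ = 0 then 0 else 1 := by
    intro σ _; split <;> simp
  rw [sum_congr rfl e, cnt]
  rw [sum_comm' (t' := T) (s' := fun t => t.powersetCard k) (fun σ t => ?_)]
  · refine sum_congr rfl fun t _ => ?_
    rw [card_eq_sum_ones, sum_filter]
    exact sum_congr rfl fun S _ => by by_cases h : f S = 0 <;> simp [h]
  · simp only [star, mem_filter, mem_powersetCard, mem_faces]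
    constructor
    · rintro ⟨⟨t', ht', hs', hc⟩, ht, hs⟩; exact ⟨⟨hs, hc⟩, ht⟩
    · rintro ⟨⟨hs, hc⟩, ht⟩; exact ⟨⟨t, ht, hs, hc⟩, ht, hs⟩

/-- The skeleton norm and the average over `T` are comparable. -/
lemma norm_compare (hT : Uniform T N) (hne : T.Nonempty) {Q : ℕ}
    (hQ : ∀ v : V, (star T {v}).card ≤ Q) {d : ℕ} (hN : d + 1 ≤ N) {i : ℕ} (hi : i ≤ d)
    (f : Finset V → ZMod 2) :
    Vale.P067.norm (skeleton T d) d i f ≤ (Q * 4 ^ N : ℝ) * avg T (i + 1) (supp f) ∧
      avg T (i + 1) (supp f) ≤ (Q * 4 ^ N : ℝ) * Vale.P067.norm (skeleton T d) d i f := by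
  set T' := skeleton T d with hT'd
  have hT' : Uniform T' (d + 1) := skeleton_uniform T d
  have hfa := faces_skeleton hT (show i + 1 ≤ d + 1 by omega) hN
  have hQσ : ∀ σ : Finset V, σ.Nonempty → (star T σ).card ≤ Q := fun σ ⟨v, hv⟩ =>
    le_trans (card_le_card fun t ht => by
      simp only [star, mem_filter, singleton_subset_iff] at ht ⊢
      exact ⟨ht.1, ht.2 hv⟩) (hQ v)
  have h1 : cnt T' (i + 1) f ≤ 2 ^ N * cnt T (i + 1) f := by
    rw [cnt_eq_sum, cnt_eq_sum, hfa, mul_sum]
    refine sum_le_sum fun σ _ => ?_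
    split_ifs
    · simp
    refine (card_le_card (t := (star T σ).biUnion fun t => t.powersetCard (d + 1)) ?_).trans ?_
    · intro u hu
      simp only [star, mem_filter, hT'd, skeleton, mem_faces] at hu
      obtain ⟨⟨t, ht, hut, huc⟩, hσu⟩ := hu
      exact mem_biUnion.2 ⟨t, by simp [star, ht, hσu.trans hut], mem_powersetCard.2 ⟨hut, huc⟩⟩
    · rw [mul_comm]
      refine card_biUnion_le_card_mul _ _ _ fun t ht => ?_
      rw [card_powersetCard, hT t (mem_filter.1 ht).1]
      exact Nat.choose_le_two_pow _ _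
  have h2 : cnt T (i + 1) f ≤ Q * cnt T' (i + 1) f := by
    rw [cnt_eq_sum, cnt_eq_sum, hfa, mul_sum]
    refine sum_le_sum fun σ hσ => ?_
    split_ifs
    · simp
    obtain ⟨t, ht, hst, hc⟩ := mem_faces.1 hσ
    have hpos : 0 < (star T' σ).card := by
      rw [← hfa] at hσ
      obtain ⟨u, hu, hsu, -⟩ := mem_faces.1 hσ
      exact card_pos.2 ⟨u, mem_filter.2 ⟨hu, hsu⟩⟩
    exact (hQσ σ (card_pos.1 (by omega))).trans (Nat.le_mul_of_pos_right _ hpos)
  have h3 : T'.card ≤ 2 ^ N * T.card := by
    rw [mul_comm, hT'd, skeleton, faces]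
    refine card_biUnion_le_card_mul _ _ _ fun t ht => ?_
    rw [card_powersetCard, hT t ht]
    exact Nat.choose_le_two_pow _ _
  have h4 : T.card ≤ Q * T'.card := by
    refine le_trans (card_le_card (t := T'.biUnion fun u => star T u) ?_) ?_
    · intro t ht
      obtain ⟨u, hut, huc⟩ := exists_subset_card_eq (s := t) (n := d + 1) (by rw [hT t ht]; omega)
      exact mem_biUnion.2 ⟨u, mem_faces.2 ⟨t, ht, hut, huc⟩, by simp [star, ht, hut]⟩
    · rw [mul_comm]
      exact card_biUnion_le_card_mul _ _ _ fun u hu => hQσ u (card_pos.1 (by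
        rw [hT' u hu]; omega))
  have hTc : (0 : ℝ) < T.card := by exact_mod_cast hne.card_pos
  have hT'c : (0 : ℝ) < T'.card := by
    have : 0 < T.card := hne.card_pos
    have : 0 < T'.card := Nat.pos_of_ne_zero fun h => by rw [h, mul_zero] at h4; omega
    exact_mod_cast this
  rw [norm_eq_avg T' d i hT', avg_supp hT', avg_supp hT]
  set c := (cnt T (i + 1) f : ℝ)
  set c' := (cnt T' (i + 1) f : ℝ)
  have r1 : c' ≤ 2 ^ N * c := by simp only [c, c']; exact_mod_cast h1
  have r2 : c ≤ Q * c' := by simp only [c, c']; exact_mod_cast h2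
  have r3 : (T'.card : ℝ) ≤ 2 ^ N * T.card := by exact_mod_cast h3
  have r4 : (T.card : ℝ) ≤ Q * T'.card := by exact_mod_cast h4
  have hC : (1 : ℝ) ≤ (N.choose (i + 1) : ℕ) := by
    exact_mod_cast Nat.choose_pos (show i + 1 ≤ N by omega)
  have hC' : (1 : ℝ) ≤ ((d + 1).choose (i + 1) : ℕ) := by
    exact_mod_cast Nat.choose_pos (show i + 1 ≤ d + 1 by omega)
  have hCu : ((N.choose (i + 1) : ℕ) : ℝ) ≤ 2 ^ N := by exact_mod_cast Nat.choose_le_two_pow _ _
  have hCu' : (((d + 1).choose (i + 1) : ℕ) : ℝ) ≤ 2 ^ N := by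
    exact_mod_cast (Nat.choose_le_two_pow _ _).trans (Nat.pow_le_pow_right two_pos hN)
  have h4N : (4 : ℝ) ^ N = 2 ^ N * 2 ^ N := by rw [← mul_pow]; norm_num
  set A := ((N.choose (i + 1) : ℕ) : ℝ)
  set A' := (((d + 1).choose (i + 1) : ℕ) : ℝ)
  have hc : 0 ≤ c := Nat.cast_nonneg _
  have hc' : 0 ≤ c' := Nat.cast_nonneg _
  have hQ0 : (0 : ℝ) ≤ Q := Nat.cast_nonneg _
  constructor
  · rw [← mul_div_assoc, div_le_div_iff₀ (mul_pos hT'c (by linarith)) (mul_pos hTc (by linarith))]
    calc c' * (T.card * A) ≤ (2 ^ N * c) * ((Q * T'.card) * 2 ^ N) := by gcongr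
      _ = Q * 4 ^ N * c * (T'.card * 1) := by rw [h4N]; ring
      _ ≤ Q * 4 ^ N * c * (T'.card * A') := by gcongr
  · rw [← mul_div_assoc, div_le_div_iff₀ (mul_pos hTc (by linarith)) (mul_pos hT'c (by linarith))]
    calc c * (T'.card * A') ≤ (Q * c') * ((2 ^ N * T.card) * 2 ^ N) := by gcongr
      _ = Q * 4 ^ N * c' * (T.card * 1) := by rw [h4N]; ring
      _ ≤ Q * 4 ^ N * c' * (T.card * A) := by gcongr

/-- **Local-to-global theorem.** -/
theorem cosystolic_of_local (d N : ℕ) (hN : d + 2 ≤ N) (C β : ℝ) (hβ : 0 < β) :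
    ∃ l0 : ℝ, 0 < l0 ∧ ∀ Q : ℕ, ∃ ε : ℝ, 0 < ε ∧
      ∀ (V : Type) [DecidableEq V] (T : Finset (Finset V)),
        T.Nonempty → Uniform T N → (∀ v : V, (star T {v}).card ≤ Q) →
        LinkExpansion T d β →
        (∀ a ≤ d, ∀ σ ∈ faces T a, Mix (link T σ) C l0) →
        IsCosystolicExpander (skeleton T d) d ε := by
  set C1 := max C 1
  set β1 := min β 1
  have hC1 : 1 ≤ C1 := le_max_right _ _
  have hβ1 : 0 < β1 := lt_min hβ one_pos
  set θ := theta d C1 β1
  have hθ : 0 < θ := by simp only [θ, theta]; positivity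
  refine ⟨θ ^ (d + 2) / (d + 2), by positivity, fun Q => ?_⟩
  set K : ℝ := ((Q : ℝ) + 1) * 4 ^ N
  set L : ℝ := ((Q : ℝ) + 1) * 4 ^ N
  have hK : 0 < K := by positivity
  set η := θ ^ (d + 1)
  have hη : 0 < η := by positivity
  refine ⟨min (1 / (K * L * K)) (η / K), by positivity, ?_⟩
  intro V _ T hne hT hQ hexp hmix
  set ε := min (1 / (K * L * K)) (η / K)
  have hexp' : LinkExpansion T d β1 := by
    intro a k h1 h2 h3 σ hσ h
    obtain ⟨g, hg⟩ := hexp a k h1 h2 h3 σ hσ h
    exact ⟨g, le_trans (mul_le_mul_of_nonneg_right (min_le_left _ _)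
      (avg_nonneg _ _ fun S => supp_nonneg _ S)) hg⟩
  have hmix' : ∀ a ≤ d, ∀ σ ∈ faces T a, Mix (link T σ) C1 (θ ^ (d + 2) / (d + 2)) := by
    intro a ha σ hσ g h hg hh
    refine (hmix a ha σ hσ g h hg hh).trans ?_
    gcongr
    · exact avg1_nonneg _ fun u => (hh u).1
    · exact avg1_nonneg _ fun u => (hg u).1
    · exact le_max_left _ _
  have hzero : ∀ (j : ℕ), j ≤ d → ∀ F : Finset V → ZMod 2, IsCocycle T j F → LocMin T j F →
      avg T (j + 1) (supp F) < η → ∀ S ∈ faces T (j + 1), F S = 0 := by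
    intro j hj F h1 h2 h3
    refine cnt_eq_zero ?_
    have h0 := supp_eq_zero hC1 (by positivity : (0:ℝ) ≤ θ ^ (d + 2) / (d + 2)) hβ1
      (min_le_right _ _) le_rfl hT hne hexp' hmix' hj hN h1 h2 h3
    rw [avg_supp hT, div_eq_zero_iff] at h0
    rcases h0 with h0 | h0
    · exact_mod_cast h0
    · exfalso
      have : 0 < T.card * N.choose (j + 1) :=
        Nat.mul_pos hne.card_pos (Nat.choose_pos (by omega))
      have : ((T.card * N.choose (j + 1) : ℕ) : ℝ) = 0 := by push_cast; exact h0
      exact absurd (Nat.cast_eq_zero.1 this) (by omega)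
  have hKQ : (Q * 4 ^ N : ℝ) ≤ K := mul_le_mul_of_nonneg_right (by linarith) (by positivity)
  have cmp : ∀ i ≤ d, ∀ f : Finset V → ZMod 2,
      Vale.P067.norm (skeleton T d) d i f ≤ K * avg T (i + 1) (supp f) ∧
        avg T (i + 1) (supp f) ≤ K * Vale.P067.norm (skeleton T d) d i f := by
    intro i hi f
    obtain ⟨h1, h2⟩ := norm_compare hT hne hQ (by omega) hi f
    refine ⟨h1.trans (mul_le_mul_of_nonneg_right hKQ (avg_nonneg _ _ fun S => supp_nonneg _ S)),
      h2.trans (mul_le_mul_of_nonneg_right hKQ ?_)⟩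
    rw [norm_eq_avg _ _ _ (skeleton_uniform T d)]
    exact avg_nonneg _ _ fun S => supp_nonneg _ S
  refine ⟨fun i hi f => ?_, fun i hi f hf hnb => ?_⟩
  · set F := delta (i + 1) f
    have hFc : IsCocycle T (i + 1) F := fun τ hτ => by
      obtain ⟨t, -, -, hc⟩ := mem_faces.1 hτ
      exact delta_delta (i + 1) f hc
    obtain ⟨y, hy1, hy2, hy3⟩ := exists_locMin hT hQ (i + 1) F
    by_cases hsmall : avg T (i + 2) (supp F) < η
    · have hle : avg T (i + 1 + 1) (supp (F + delta (i + 1) y)) < η := by
        refine lt_of_le_of_lt ?_ hsmall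
        rw [avg_supp hT, avg_supp hT]
        gcongr
      have hF' : IsCocycle T (i + 1) (F + delta (i + 1) y) := fun τ hτ => by
        obtain ⟨t, -, -, hc⟩ := mem_faces.1 hτ
        rw [delta_add, Pi.add_apply, hFc τ hτ, delta_delta (i + 1) y hc, add_zero]
      have hz := hzero (i + 1) (by omega) _ hF' hy1 hle
      refine ⟨f + y, fun τ hτ => ?_, ?_⟩
      · rw [faces_skeleton hT (by omega) (by omega)] at hτ
        rw [delta_add]
        exact hz τ hτ
      · have e : f - (f + y) = y := by
          funext S; simp [CharTwo.neg_eq]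
        rw [e]
        have hy : avg T (i + 1) (supp y) ≤ L * avg T (i + 2) (supp F) := by
          rw [avg_supp hT, avg_supp hT, ← mul_div_assoc,
            div_le_div_iff₀ (by
              have := hne.card_pos
              have := Nat.choose_pos (show i + 1 ≤ N by omega)
              positivity) (by
              have := hne.card_pos
              have := Nat.choose_pos (show i + 2 ≤ N by omega)
              positivity)]
          have e1 : (cnt T (i + 1) y : ℝ) ≤ (Q : ℝ) * 2 ^ N * cnt T (i + 2) F := by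
            exact_mod_cast hy3
          have e2 : ((N.choose (i + 2) : ℕ) : ℝ) ≤ 2 ^ N := by
            exact_mod_cast Nat.choose_le_two_pow _ _
          have e3 : (1 : ℝ) ≤ ((N.choose (i + 1) : ℕ) : ℝ) := by
            exact_mod_cast Nat.choose_pos (show i + 1 ≤ N by omega)
          calc (cnt T (i + 1) y : ℝ) * (T.card * (N.choose (i + 2) : ℕ))
              ≤ ((Q : ℝ) * 2 ^ N * cnt T (i + 2) F) * (T.card * 2 ^ N) := by gcongr
            _ ≤ (((Q : ℝ) + 1) * 2 ^ N * cnt T (i + 2) F) * (T.card * 2 ^ N) := by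
                gcongr; linarith
            _ = L * cnt T (i + 2) F * (T.card * 1) := by
                simp only [L]; rw [show (4 : ℝ) ^ N = 2 ^ N * 2 ^ N by rw [← mul_pow]; norm_num]
                ring
            _ ≤ _ := by gcongr
        have hn : Vale.P067.norm (skeleton T d) d i y
            ≤ K * L * K * Vale.P067.norm (skeleton T d) d (i + 1) F := by
          calc _ ≤ K * avg T (i + 1) (supp y) := (cmp i (by omega) y).1
            _ ≤ K * (L * avg T (i + 2) (supp F)) := by gcongr
            _ ≤ K * (L * (K * Vale.P067.norm (skeleton T d) d (i + 1) F)) := by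
                gcongr; exact (cmp (i + 1) (by omega) F).2
            _ = _ := by ring
        have hn0 : 0 ≤ Vale.P067.norm (skeleton T d) d i y := by
          rw [norm_eq_avg _ _ _ (skeleton_uniform T d)]
          exact avg_nonneg _ _ fun S => supp_nonneg _ S
        calc ε * Vale.P067.norm (skeleton T d) d i y
            ≤ 1 / (K * L * K) * Vale.P067.norm (skeleton T d) d i y :=
              mul_le_mul_of_nonneg_right (min_le_left _ _) hn0
          _ ≤ _ := by
              rw [one_div_mul_eq_div, div_le_iff₀ (by positivity), mul_comm]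
              exact hn
    · push Not at hsmall
      refine ⟨0, fun τ _ => by simp [delta], ?_⟩
      rw [sub_zero]
      have h1 : Vale.P067.norm (skeleton T d) d i f ≤ 1 := by
        rw [norm_eq_avg _ _ _ (skeleton_uniform T d)]
        exact avg_le_one _ _ fun S => (supp_mem _ S).2
      have h2 : η / K ≤ Vale.P067.norm (skeleton T d) d (i + 1) F := by
        rw [div_le_iff₀' hK]
        exact hsmall.trans (cmp (i + 1) (by omega) F).2
      calc ε * Vale.P067.norm (skeleton T d) d i f ≤ ε * 1 := by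
            refine mul_le_mul_of_nonneg_left h1 ?_
            positivity
        _ ≤ η / K := by rw [mul_one]; exact min_le_right _ _
        _ ≤ _ := h2
  · refine (min_le_right _ _).trans ?_
    rw [div_le_iff₀' hK]
    refine le_trans ?_ (cmp i (by omega) f).2
    by_contra hlt
    push Not at hlt
    obtain ⟨y, hy1, hy2, -⟩ := exists_locMin hT hQ i f
    have hf' : IsCocycle T i (f + delta i y) := fun τ hτ => by
      obtain ⟨t, -, -, hc⟩ := mem_faces.1 hτ
      rw [delta_add, Pi.add_apply, hf τ (by rwa [faces_skeleton hT (by omega) (by omega)]),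
        delta_delta i y hc, add_zero]
    have hz := hzero i (by omega) _ hf' hy1 (lt_of_le_of_lt (by
      rw [avg_supp hT, avg_supp hT]; gcongr) hlt)
    refine hnb ⟨y, fun σ hσ => ?_⟩
    rw [faces_skeleton hT (by omega) (by omega)] at hσ
    exact zmod_two_eq_of_add (hz σ hσ)

/-- With vanishing cohomology, cosystolic expansion is coboundary expansion. -/
theorem coboundaryExpander_of_cosystolic {T : Finset (Finset V)} {d : ℕ} {ε : ℝ}
    (h : IsCosystolicExpander T d ε)
    (hvan : ∀ i < d, ∀ f : Finset V → ZMod 2, IsCocycle T i f → IsCobound T i f) :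
    IsCoboundaryExpander T d ε := by
  intro i hi f
  obtain ⟨z, hz, hle⟩ := h.1 i hi f
  exact ⟨z, hvan i hi z hz, hle⟩

end Vale.P067.Local
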