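import Vale.Agent.P067.Local.Sums

/-!
# A small locally minimal cocycle is zero
-/

namespace Vale.P067.Local

open Finset

variable {V : Type} [DecidableEq V] {T : Finset (Finset V)} {N : ℕ}

lemma supp_mem (f : Finset V → ZMod 2) (S : Finset V) : supp f S ∈ Set.Icc (0 : ℝ) 1 := by
  unfold supp; split <;> norm_num

lemma supp_nonneg (f : Finset V → ZMod 2) (S : Finset V) : 0 ≤ supp f S := (supp_mem f S).1

lemma supp_sum_le {ι : Type} (s : Finset ι) (x : ι → ZMod 2) :
    (if ∑ i ∈ s, x i = 0 then (0 : ℝ) else 1) ≤ ∑ i ∈ s, if x i = 0 then (0 : ℝ) else 1 := by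
  split
  · exact sum_nonneg fun i _ => by split <;> norm_num
  · rename_i h
    obtain ⟨i, hi, hx⟩ := exists_ne_zero_of_sum_ne_zero h
    refine le_trans ?_ (single_le_sum (fun j _ => by split <;> norm_num) hi)
    simp [hx]

lemma delta_eq_erase (k : ℕ) (f : Finset V → ZMod 2) {τ : Finset V} (hτ : τ.card = k + 1) :
    delta k f τ = ∑ x ∈ τ, f (τ.erase x) := by
  symm
  refine sum_bij (fun x _ => τ.erase x) ?_ ?_ ?_ (fun _ _ => rfl)
  · intro x hx
    exact mem_powersetCard.2 ⟨erase_subset _ _, by rw [card_erase_of_mem hx, hτ]; omega⟩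
  · intro x hx y hy h
    by_contra hne
    exact (notMem_erase x τ) (h ▸ mem_erase.2 ⟨hne, hx⟩)
  · intro σ hσ
    obtain ⟨hs, hc⟩ := mem_powersetCard.1 hσ
    obtain ⟨x, hx⟩ : ∃ x, τ \ σ = {x} := card_eq_one.1 (by rw [card_sdiff_of_subset hs]; omega)
    have hxm : x ∈ τ \ σ := by simp [hx]
    refine ⟨x, (mem_sdiff.1 hxm).1, ?_⟩
    refine (eq_of_subset_of_card_le (fun y hy => mem_erase.2 ⟨?_, hs hy⟩) ?_).symm
    · rintro rfl; exact (mem_sdiff.1 hxm).2 hy
    · rw [card_erase_of_mem (mem_sdiff.1 hxm).1]; omega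

lemma zmod_two_eq_of_add {x y : ZMod 2} (h : x + y = 0) : x = y := by
  rw [add_eq_zero_iff_eq_neg] at h
  simpa [CharTwo.neg_eq] using h

/-- For a cocycle the link coboundary of its localisation is a sum over the centre. -/
lemma delta_localise (f : Finset V → ZMod 2) (σ R : Finset V) (k : ℕ) (hd : Disjoint σ R)
    (hR : R.card = k + 1) (hcoc : delta (σ.card + k) f (σ ∪ R) = 0) :
    delta k (fun S => f (σ ∪ S)) R = ∑ u ∈ σ, f (σ.erase u ∪ R) := by
  rw [delta_eq_erase k _ hR]
  rw [delta_eq_erase _ f (by rw [card_union_of_disjoint hd, hR]; omega),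
    sum_union hd] at hcoc
  have h1 : ∀ u ∈ σ, (σ ∪ R).erase u = σ.erase u ∪ R := by
    intro u hu
    ext x; simp only [mem_erase, mem_union]
    have := disjoint_left.1 hd hu
    constructor
    · tauto
    · rintro (h | h)
      · exact ⟨h.1, Or.inl h.2⟩
      · exact ⟨fun e => this (e ▸ h), Or.inr h⟩
  have h2 : ∀ u ∈ R, (σ ∪ R).erase u = σ ∪ R.erase u := by
    intro u hu
    ext x; simp only [mem_erase, mem_union]
    have := disjoint_right.1 hd hu
    constructor
    · tauto
    · rintro (h | h)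
      · exact ⟨fun e => this (e ▸ h), Or.inl h⟩
      · exact ⟨h.1, Or.inr h.2⟩
  rw [sum_congr rfl (fun u hu => by rw [h1 u hu]),
    sum_congr (s₁ := R) rfl (fun u hu => by rw [h2 u hu])] at hcoc
  exact (zmod_two_eq_of_add hcoc).symm

/-- The pairing of a vertex function and a function on `b`-faces. -/
noncomputable def pairing (T : Finset (Finset V)) (b : ℕ) (g : V → ℝ) (h : Finset V → ℝ) : ℝ :=
  avg1 T (fun u => g u * avg (link T {u}) b h)

lemma avg1_sqrt_le (T : Finset (Finset V)) {a c : V → ℝ} (ha : ∀ u, 0 ≤ a u)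
    (hc : ∀ u, 0 ≤ c u) :
    avg1 T (fun u => Real.sqrt (a u * c u)) ≤ Real.sqrt (avg1 T a * avg1 T c) := by
  have hD : (0 : ℝ) ≤ ∑ t ∈ T, (t.card : ℝ) := sum_nonneg fun _ _ => Nat.cast_nonneg _
  unfold avg1
  rw [div_mul_div_comm, Real.sqrt_div (mul_nonneg (sum_nonneg fun _ _ => sum_nonneg fun u _ => ha u)
    (sum_nonneg fun _ _ => sum_nonneg fun u _ => hc u)), Real.sqrt_mul_self hD]
  refine div_le_div_of_nonneg_right ?_ hD
  rw [sum_sigma', sum_sigma', sum_sigma',
    Real.sqrt_mul (sum_nonneg fun x _ => ha x.2)]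
  calc ∑ x ∈ T.sigma (fun t => t), Real.sqrt (a x.2 * c x.2)
      = ∑ x ∈ T.sigma (fun t => t), Real.sqrt (a x.2) * Real.sqrt (c x.2) :=
        sum_congr rfl fun x _ => Real.sqrt_mul (ha x.2) _
    _ ≤ _ := Real.sum_sqrt_mul_sqrt_le _ (fun x => ha x.2) (fun x => hc x.2)

lemma pairing_le_right (hT : Uniform T N) (b : ℕ) (hb : b < N) {g : V → ℝ}
    (hg : ∀ u, g u ∈ Set.Icc (0 : ℝ) 1) {h : Finset V → ℝ} (hh : ∀ S, 0 ≤ h S) :
    pairing T b g h ≤ avg T b h := by
  rw [← avg1_avg_link hT b hb h]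
  refine avg1_mono T fun t _ u _ => ?_
  exact mul_le_of_le_one_left (avg_nonneg _ _ hh) (hg u).2

/-- Mixing between vertices and `b`-faces from skeleton expansion of the links. -/
lemma pairing_le {C l : ℝ} (hC : 1 ≤ C) (hl : 0 ≤ l) :
    ∀ (b : ℕ) (N : ℕ) (T : Finset (Finset V)), Uniform T N → T.Nonempty → b < N →
      (∀ a < b, ∀ ρ ∈ faces T a, Mix (link T ρ) C l) →
      ∀ (g : V → ℝ) (h : Finset V → ℝ), (∀ u, g u ∈ Set.Icc (0 : ℝ) 1) →
        (∀ S, h S ∈ Set.Icc (0 : ℝ) 1) →
        pairing T b g h ≤ C ^ b * avg1 T g * avg T b h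
          + b * C ^ b * l * Real.sqrt (avg1 T g * avg T b h) := by
  intro b
  induction b with
  | zero =>
    intro N T hT hne hbN _ g h hg hh
    have e : pairing T 0 g h = avg1 T g * h ∅ := by
      rw [mul_comm, ← avg1_smul]
      refine avg1_congr T fun t ht u hu => ?_
      rw [avg_zero (hT.link {u}) ⟨t \ {u}, mem_link.2 ⟨t, ht, by simpa using hu, rfl⟩⟩, mul_comm]
    rw [e, avg_zero hT hne]
    simp
  | succ b ih =>
    intro N T hT hne hbN hmix g h hg hh
    set a : V → ℝ := fun w => avg1 (link T {w}) g with ha_def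
    set c : V → ℝ := fun w => avg (link T {w}) b (fun R => h (insert w R)) with hc_def
    have ha : ∀ w, a w ∈ Set.Icc (0 : ℝ) 1 := fun w =>
      ⟨avg1_nonneg _ fun u => (hg u).1, avg1_le_one _ fun u => (hg u).2⟩
    have hc : ∀ w, c w ∈ Set.Icc (0 : ℝ) 1 := fun w =>
      ⟨avg_nonneg _ _ fun u => (hh _).1, avg_le_one _ _ fun u => (hh _).2⟩
    have hEa : avg1 T a = avg1 T g := by
      have e1 := avg1_localise hT 0 (by omega) (fun S => ∑ u ∈ S, g u)
      have e2 : avg T 1 (fun S => ∑ u ∈ S, g u) = avg1 T g := by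
        rw [avg_eq hT, avg1_eq hT]; simp [powersetCard_one, sum_map]
      rw [← avg1_avg_link hT 1 (by omega) (fun S => ∑ u ∈ S, g u)] at e2
      rw [← e2]
      refine avg1_congr T fun t ht u hu => ?_
      rw [ha_def]
      simp only
      rw [avg_eq (hT.link {u}), avg1_eq (hT.link {u})]
      simp [powersetCard_one, sum_map]
    have hEc : avg1 T c = avg T (b + 1) h := avg1_localise hT b (by omega) h
    -- pass to a random vertex `w` of the face
    have e1 : pairing T (b + 1) g h
        = avg1 T (fun w => pairing (link T {w}) b g (fun R => h (insert w R))) := by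
      have e2 : pairing T (b + 1) g h = avg1 T (fun u => avg1 (link T {u})
          (fun w => g u * avg (link (link T {u}) {w}) b (fun R => h (insert w R)))) := by
        refine avg1_congr T fun t ht u hu => ?_
        rw [avg1_smul, avg1_localise (hT.link {u}) b (by simp; omega) h]
      rw [e2, avg1_swap hT]
      refine avg1_congr T fun t ht w hw => ?_
      refine avg1_congr _ fun r hr u hu => ?_
      obtain ⟨t', -, -, rfl⟩ := mem_link.1 hr
      simp only [mem_sdiff, mem_singleton] at hu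
      rw [link_link T (by simpa using Ne.symm hu.2), link_link T (by simpa using hu.2),
        pair_comm]
    have e3 : ∀ t ∈ T, ∀ w ∈ t, pairing (link T {w}) b g (fun R => h (insert w R))
        ≤ C ^ b * (a w * c w) + b * C ^ b * l * Real.sqrt (a w * c w) := by
      intro t ht w hw
      rw [← mul_assoc]
      refine ih (N - 1) (link T {w}) (by simpa using hT.link {w})
        ⟨t \ {w}, mem_link.2 ⟨t, ht, by simpa using hw, rfl⟩⟩ (by omega) ?_ g
        (fun R => h (insert w R)) hg fun S => hh _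
      intro k hk ρ hρ
      obtain ⟨r, hr, hs, hcard⟩ := mem_faces.1 hρ
      obtain ⟨t', ht', hwt', rfl⟩ := mem_link.1 hr
      have hw' : w ∉ ρ := fun hh' => by simpa using (mem_sdiff.1 (hs hh')).2
      have : link (link T {w}) ρ = link T (insert w ρ) := by
        ext r'
        simp only [mem_link]
        constructor
        · rintro ⟨_, ⟨t'', ht'', hw'', rfl⟩, hsub, rfl⟩
          refine ⟨t'', ht'', insert_subset (by simpa using hw'') (hsub.trans sdiff_subset), ?_⟩
          ext x; simp; tauto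
        · rintro ⟨t'', ht'', hsub, rfl⟩
          rw [insert_subset_iff] at hsub
          refine ⟨t'' \ {w}, ⟨t'', ht'', by simpa using hsub.1, rfl⟩, ?_, ?_⟩
          · intro x hx; simp only [mem_sdiff, mem_singleton]
            exact ⟨hsub.2 hx, fun e => hw' (e ▸ hx)⟩
          · ext x; simp; tauto
      rw [this]
      refine hmix (k + 1) (by omega) _ (mem_faces.2 ⟨t', ht',
        insert_subset (by simpa using hwt') (hs.trans sdiff_subset), ?_⟩)
      rw [card_insert_of_notMem hw', hcard]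
    have e4 : avg1 T (fun w => a w * c w)
        ≤ C * avg1 T g * avg T (b + 1) h + l * Real.sqrt (avg1 T g * avg T (b + 1) h) := by
      have hm := hmix 0 (by omega) ∅ (mem_faces.2 (by
        obtain ⟨t, ht⟩ := hne; exact ⟨t, ht, empty_subset _, rfl⟩))
      rw [show link T ∅ = T by simp [link, star]] at hm
      have := hm c g hc hg
      rw [hEc, mul_comm (avg T (b + 1) h) (avg1 T g)] at this
      refine le_trans (le_of_eq ?_) (this.trans (le_of_eq (by ring)))
      refine avg1_congr T fun t _ w _ => ?_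
      rw [ha_def]; ring
    have e5 : avg1 T (fun w => Real.sqrt (a w * c w))
        ≤ Real.sqrt (avg1 T g * avg T (b + 1) h) := by
      rw [← hEa, ← hEc]
      exact avg1_sqrt_le T (fun w => (ha w).1) fun w => (hc w).1
    rw [e1]
    refine le_trans (avg1_mono T e3) ?_
    rw [avg1_add, avg1_smul, avg1_smul]
    have hCb : (0 : ℝ) ≤ C ^ b := by positivity
    have hbC : 0 ≤ (b : ℝ) * C ^ b * l := by positivity
    have h1 := mul_le_mul_of_nonneg_left e4 hCb
    have h2 := mul_le_mul_of_nonneg_left e5 hbC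
    have hCC : C ^ b ≤ C ^ (b + 1) := pow_le_pow_right₀ hC (Nat.le_succ b)
    have hs := Real.sqrt_nonneg (avg1 T g * avg T (b + 1) h)
    have h3 : (C ^ b + (b : ℝ) * C ^ b) * (l * Real.sqrt (avg1 T g * avg T (b + 1) h))
        ≤ ((b : ℝ) + 1) * C ^ (b + 1) * (l * Real.sqrt (avg1 T g * avg T (b + 1) h)) := by
      refine mul_le_mul_of_nonneg_right ?_ (mul_nonneg hl hs)
      nlinarith
    push_cast
    rw [pow_succ] at h3 ⊢
    nlinarith

/-- `f`'s localisations cannot be shrunk by link coboundaries. -/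
def LocMin (T : Finset (Finset V)) (i : ℕ) (f : Finset V → ZMod 2) : Prop :=
  ∀ a k : ℕ, 1 ≤ a → 1 ≤ k → a + k = i + 1 → ∀ σ ∈ faces T a, ∀ g : Finset V → ZMod 2,
    avg (link T σ) k (supp fun S => f (σ ∪ S))
      ≤ avg (link T σ) k (supp ((fun S => f (σ ∪ S)) + delta (k - 1) g))

/-- Average of the support of `f` over the `i`-faces through `σ`. -/
noncomputable def loc (T : Finset (Finset V)) (i : ℕ) (f : Finset V → ZMod 2) (σ : Finset V) : ℝ :=
  avg (link T σ) (i + 1 - σ.card) (supp fun S => f (σ ∪ S))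

lemma loc_mem (T : Finset (Finset V)) (i : ℕ) (f : Finset V → ZMod 2) (σ : Finset V) :
    loc T i f σ ∈ Set.Icc (0 : ℝ) 1 :=
  ⟨avg_nonneg _ _ fun S => supp_nonneg _ S, avg_le_one _ _ fun S => (supp_mem _ S).2⟩

/-- The mass of `f` at fat `a`-faces. -/
noncomputable def fatMass (T : Finset (Finset V)) (i : ℕ) (f : Finset V → ZMod 2) (a : ℕ)
    (η : ℝ) : ℝ :=
  avg T a (fun σ => if η ≤ loc T i f σ then loc T i f σ else 0)

lemma avg_loc (hT : Uniform T N) (i a : ℕ) (ha : a ≤ i + 1) (f : Finset V → ZMod 2) :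
    avg T a (loc T i f) = avg T (i + 1) (supp f) := by
  have e := avg_localise hT a (i + 1 - a) (supp f)
  rw [Nat.add_sub_cancel' ha] at e
  rw [← e]
  refine avg_congr T a fun σ hσ => ?_
  obtain ⟨t, -, -, hc⟩ := mem_faces.1 hσ
  rw [loc, hc]
  rfl

/-- The recursion for the fat mass. -/
lemma fatMass_step {C l β : ℝ} (hC : 1 ≤ C) (hl : 0 ≤ l) (hβ0 : 0 < β) (hβ1 : β ≤ 1)
    {d : ℕ} (hT : Uniform T N) (hexp : LinkExpansion T d β)
    (hmix : ∀ a ≤ d, ∀ σ ∈ faces T a, Mix (link T σ) C l)
    {i : ℕ} (hi : i ≤ d) (hN : d + 2 ≤ N) {f : Finset V → ZMod 2}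
    (hcoc : IsCocycle T i f) (hmin : LocMin T i f)
    {a : ℕ} (ha : a ≤ i) {η η' : ℝ} (hη : 0 ≤ η) (hη' : 0 < η') (hη'1 : η' ≤ 1) :
    β * fatMass T i f (a + 1) η'
      ≤ (a + 1 : ℕ) * (fatMass T i f a η
          + C ^ (d + 2) * (η / η' + (d + 2) * l / η') * avg T (i + 1) (supp f)) := by
  classical
  set b := i + 1 - a with hb
  set G : Finset V → V → ℝ := fun ρ u =>
    if η' ≤ loc T i f (insert u ρ) then 1 else 0 with hG
  set Ψ : Finset V → V → ℝ := fun ρ u =>
    G ρ u * avg (link T (insert u ρ)) b (supp fun R => f (ρ ∪ R)) with hΨ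
  -- Step 1: minimality, expansion and the cocycle identity
  have step1 : β * fatMass T i f (a + 1) η'
      ≤ avg T (a + 1) (fun σ => ∑ u ∈ σ, Ψ (σ.erase u) u) := by
    rw [fatMass, ← avg_smul]
    refine avg_mono T _ fun σ hσ => ?_
    obtain ⟨t, ht, hst, hc⟩ := mem_faces.1 hσ
    have hins : ∀ u ∈ σ, insert u (σ.erase u) = σ := fun u hu => insert_erase hu
    have hΨσ : ∀ u ∈ σ, Ψ (σ.erase u) u = (if η' ≤ loc T i f σ then 1 else 0) *
        avg (link T σ) b (supp fun R => f (σ.erase u ∪ R)) := by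
      intro u hu; simp only [hΨ, hG, hins u hu]
    rw [sum_congr rfl hΨσ, ← mul_sum]
    split
    swap
    · simp
    rw [one_mul, ← avg_sum]
    set h : Finset V → ZMod 2 := fun S => f (σ ∪ S) with hh
    have hk : i + 1 - (a + 1) + 1 = b := by omega
    have hb1 : β * loc T i f σ ≤ avg (link T σ) b (supp (delta (i + 1 - (a + 1)) h)) := by
      rw [loc, hc, ← hk]
      rcases Nat.eq_zero_or_pos (i + 1 - (a + 1)) with h0 | hpos
      · -- `σ` is itself an `i`-face
        rw [h0, zero_add]
        have hne : (link T σ).Nonempty := ⟨t \ σ, mem_link.2 ⟨t, ht, hst, rfl⟩⟩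
        rw [avg_zero (hT.link σ) hne]
        have hd1 : ∀ S ∈ faces (link T σ) 1, supp (delta 0 h) S = supp h ∅ := by
          intro S hS
          simp [supp, delta]
        rw [avg_congr _ _ hd1, avg_eq (hT.link σ)]
        have hN1 : 1 ≤ N - σ.card := by omega
        have hpos' : (0 : ℝ) < ((link T σ).card : ℝ) * ((N - σ.card).choose 1 : ℕ) := by
          have := hne.card_pos
          have := Nat.choose_pos hN1
          positivity
        rw [sum_congr rfl (fun r hr => by
          rw [sum_const, card_powersetCard, hT.link σ r hr, nsmul_eq_mul]), sum_const,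
          nsmul_eq_mul, ← mul_assoc, mul_div_cancel_left₀ _ hpos'.ne']
        exact mul_le_of_le_one_left (supp_nonneg _ _) hβ1
      · obtain ⟨g, hg⟩ := hexp (a + 1) (i + 1 - (a + 1)) (by omega) hpos (by omega) σ hσ h
        refine le_trans ?_ hg
        exact mul_le_mul_of_nonneg_left
          (hmin (a + 1) (i + 1 - (a + 1)) (by omega) hpos (by omega) σ hσ g) hβ0.le
    refine hb1.trans (avg_mono _ _ fun R hR => ?_)
    obtain ⟨r, hr, hRr, hRc⟩ := mem_faces.1 hR
    obtain ⟨t', ht', hst', rfl⟩ := mem_link.1 hr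
    have hd : Disjoint σ R := disjoint_left.2 fun x hx hR' => (mem_sdiff.1 (hRr hR')).2 hx
    have hcard : (σ ∪ R).card = i + 2 := by rw [card_union_of_disjoint hd, hc, hRc]; omega
    have hcoc' := hcoc (σ ∪ R) (mem_faces.2
      ⟨t', ht', union_subset hst' (hRr.trans sdiff_subset), hcard⟩)
    rw [show i + 1 = σ.card + (i + 1 - (a + 1)) by omega] at hcoc'
    unfold supp
    rw [delta_localise f σ R _ hd (by omega) hcoc']
    exact supp_sum_le σ _
  -- Step 2: move to the faces one vertex smaller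
  rw [avg_sum_vertices hT] at step1
  refine step1.trans (mul_le_mul_of_nonneg_left ?_ (Nat.cast_nonneg _))
  -- Step 3: the estimate in each link
  have key : ∀ ρ ∈ faces T a, avg1 (link T ρ) (Ψ ρ) ≤
      (if η ≤ loc T i f ρ then loc T i f ρ else 0)
        + C ^ (d + 2) * (η / η' + (d + 2) * l / η') * loc T i f ρ := by
    intro ρ hρ
    obtain ⟨t, ht, hρt, hρc⟩ := mem_faces.1 hρ
    set hF : Finset V → ℝ := supp fun R => f (ρ ∪ R) with hhF
    have hq : loc T i f ρ = avg (link T ρ) b hF := by rw [loc, hρc]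
    have hG01 : ∀ u, G ρ u ∈ Set.Icc (0 : ℝ) 1 := by
      intro u; simp only [hG]; split <;> norm_num
    have hUρ : Uniform (link T ρ) (N - a) := hρc ▸ hT.link ρ
    have eP : avg1 (link T ρ) (Ψ ρ) = pairing (link T ρ) b (G ρ) hF := by
      refine avg1_congr _ fun r hr u hu => ?_
      obtain ⟨t', -, -, rfl⟩ := mem_link.1 hr
      rw [link_link T (mem_sdiff.1 hu).2]
    have hq0 := (loc_mem T i f ρ).1
    have hC0 : (0 : ℝ) ≤ C ^ (d + 2) := by positivity
    have hκ : 0 ≤ C ^ (d + 2) * (η / η' + (d + 2) * l / η') := by positivity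
    rw [eP]
    split_ifs with hfat
    · have := pairing_le_right hUρ b (by omega) hG01 (h := hF) fun S => supp_nonneg _ S
      nlinarith [mul_nonneg hκ hq0]
    · push_neg at hfat
      have hm := pairing_le hC hl b (N - a) (link T ρ) hUρ
        ⟨t \ ρ, mem_link.2 ⟨t, ht, hρt, rfl⟩⟩ (by omega) (fun k hk π hπ => by
          obtain ⟨r, hr, hπr, hπc⟩ := mem_faces.1 hπ
          obtain ⟨t', ht', hρt', rfl⟩ := mem_link.1 hr
          have hd : Disjoint ρ π := disjoint_left.2 fun x hx hp => (mem_sdiff.1 (hπr hp)).2 hx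
          have e : link (link T ρ) π = link T (ρ ∪ π) := by
            ext r'
            simp only [mem_link]
            constructor
            · rintro ⟨_, ⟨t'', ht'', h1, rfl⟩, h2, rfl⟩
              refine ⟨t'', ht'', union_subset h1 (h2.trans sdiff_subset), ?_⟩
              ext x; simp; tauto
            · rintro ⟨t'', ht'', h1, rfl⟩
              refine ⟨t'' \ ρ, ⟨t'', ht'', (union_subset_iff.1 h1).1, rfl⟩, ?_, ?_⟩
              · intro x hx
                exact mem_sdiff.2 ⟨(union_subset_iff.1 h1).2 hx, disjoint_right.1 hd hx⟩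
              · ext x; simp; tauto
          rw [e]
          refine hmix (a + k) (by omega) _ (mem_faces.2 ⟨t', ht',
            union_subset hρt' (hπr.trans sdiff_subset), ?_⟩)
          rw [card_union_of_disjoint hd, hρc, hπc]) (G ρ) hF hG01 fun S => supp_mem _ S
      rw [← hq] at hm
      have hp : avg1 (link T ρ) (G ρ) ≤ loc T i f ρ / η' := by
        rw [le_div_iff₀ hη', mul_comm, ← avg1_smul]
        have e : avg1 (link T ρ) (fun u => loc T i f (insert u ρ)) = loc T i f ρ := by
          rw [hq, show b = (i - a) + 1 by omega]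
          rw [← avg1_localise hUρ (i - a) (by omega) hF]
          refine avg1_congr _ fun r hr u hu => ?_
          obtain ⟨t', -, -, rfl⟩ := mem_link.1 hr
          have hu' := (mem_sdiff.1 hu).2
          rw [link_link T hu', loc, card_insert_of_notMem hu', hρc,
            show i + 1 - (a + 1) = i - a by omega]
          refine avg_congr _ _ fun S _ => ?_
          simp only [hhF, supp, union_insert, insert_union]
        refine (avg1_mono _ fun r _ u _ => ?_).trans e.le
        simp only [hG]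
        split
        · simpa using ‹η' ≤ _›
        · simpa using (loc_mem T i f _).1
      have hp0 : 0 ≤ avg1 (link T ρ) (G ρ) := avg1_nonneg _ fun u => (hG01 u).1
      set p := avg1 (link T ρ) (G ρ)
      set q := loc T i f ρ
      have hCb : C ^ b ≤ C ^ (d + 2) := pow_le_pow_right₀ hC (by omega)
      have hbd : (b : ℝ) ≤ (d + 2 : ℝ) := by exact_mod_cast (show b ≤ d + 2 by omega)
      have h1 : C ^ b * p * q ≤ C ^ (d + 2) * (η / η') * q := by
        refine mul_le_mul_of_nonneg_right (mul_le_mul hCb (hp.trans ?_) hp0 hC0) hq0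
        gcongr
      have h2 : Real.sqrt (p * q) ≤ q / η' := by
        rw [Real.sqrt_le_left (by positivity)]
        calc p * q ≤ q / η' * q := mul_le_mul_of_nonneg_right hp hq0
          _ = q * q / η' := by ring
          _ ≤ q * q / (η' * η') := by
              gcongr
              nlinarith
          _ = (q / η') ^ 2 := by ring
      have h3 : (b : ℝ) * C ^ b * l * Real.sqrt (p * q)
          ≤ (d + 2) * C ^ (d + 2) * l * (q / η') :=
        mul_le_mul (mul_le_mul_of_nonneg_right (mul_le_mul hbd hCb (by positivity) (by positivity))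
          hl) h2 (Real.sqrt_nonneg _) (by positivity)
      calc pairing (link T ρ) b (G ρ) hF ≤ _ := hm
        _ ≤ C ^ (d + 2) * (η / η') * q + (d + 2) * C ^ (d + 2) * l * (q / η') := add_le_add h1 h3
        _ = _ := by ring
  refine (avg_mono T a key).trans (le_of_eq ?_)
  rw [avg_add, avg_smul, avg_loc hT i a (by omega), fatMass]

/-- The threshold for the skeleton expansion. -/
noncomputable def theta (d : ℕ) (C β : ℝ) : ℝ :=
  1 / (4 * (d + 1) * ((d + 1) / β) ^ (d + 1) * C ^ (d + 2))

/-- **A small locally minimal cocycle is zero.** -/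
theorem supp_eq_zero {C l β : ℝ} (hC : 1 ≤ C) (hl : 0 ≤ l) (hβ0 : 0 < β) (hβ1 : β ≤ 1)
    {d : ℕ} (hl0 : l ≤ theta d C β ^ (d + 2) / (d + 2))
    (hT : Uniform T N) (hne : T.Nonempty) (hexp : LinkExpansion T d β)
    (hmix : ∀ a ≤ d, ∀ σ ∈ faces T a, Mix (link T σ) C l)
    {i : ℕ} (hi : i ≤ d) (hN : d + 2 ≤ N) {f : Finset V → ZMod 2}
    (hcoc : IsCocycle T i f) (hmin : LocMin T i f)
    (hsmall : avg T (i + 1) (supp f) < theta d C β ^ (d + 1)) :
    avg T (i + 1) (supp f) = 0 := by
  set θ := theta d C β with hθd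
  set K : ℝ := ((d : ℝ) + 1) / β with hK
  set F := avg T (i + 1) (supp f) with hF
  have hF0 : 0 ≤ F := avg_nonneg _ _ fun S => supp_nonneg _ S
  have hK1 : 1 ≤ K := by
    rw [hK, le_div_iff₀ hβ0]
    linarith [(d.cast_nonneg : (0 : ℝ) ≤ d)]
  have hθ : 0 < θ := by rw [hθd, theta]; positivity
  have hθ1 : θ ≤ 1 := by
    rw [hθd, theta, div_le_one (by positivity)]
    have := one_le_pow₀ (n := d + 1) hK1
    have := one_le_pow₀ (n := d + 2) hC
    have : (1 : ℝ) ≤ 4 * (d + 1) := by linarith [(d.cast_nonneg : (0 : ℝ) ≤ d)]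
    exact one_le_mul_of_one_le_of_one_le (one_le_mul_of_one_le_of_one_le this ‹_›) ‹_›
  set η : ℕ → ℝ := fun a => θ ^ (i + 1 - a)
  set κ : ℝ := 2 * C ^ (d + 2) * θ with hκ
  have hκ0 : 0 ≤ κ := by positivity
  have hrec : ∀ a, a ≤ i + 1 → fatMass T i f a (η a) ≤ a * K ^ a * κ * F := by
    intro a
    induction a with
    | zero =>
      intro _
      have e : loc T i f ∅ = F := by
        rw [loc, show link T (∅ : Finset V) = T by simp [link, star]]
        simp [hF]
      have : ¬ η 0 ≤ F := by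
        push_neg
        refine hsmall.trans_le ?_
        exact pow_le_pow_of_le_one hθ.le hθ1 (by omega)
      simp [fatMass, avg_zero hT hne, e, this]
    | succ a ih =>
      intro ha
      have ha' : a ≤ i := by omega
      have hη' : 0 < η (a + 1) := pow_pos hθ _
      have hη'1 : η (a + 1) ≤ 1 := pow_le_one₀ hθ.le hθ1
      have h := fatMass_step hC hl hβ0 hβ1 hT hexp hmix hi hN hcoc hmin ha' (η := η a)
        (η' := η (a + 1)) (pow_nonneg hθ.le _) hη' hη'1
      have hr : η a / η (a + 1) + (d + 2) * l / η (a + 1) ≤ 2 * θ := by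
        have e1 : η a / η (a + 1) = θ := by
          rw [div_eq_iff hη'.ne']
          show θ ^ (i + 1 - a) = θ * θ ^ (i + 1 - (a + 1))
          rw [← pow_succ']; congr 1; omega
        have e2 : (d + 2) * l / η (a + 1) ≤ θ := by
          rw [div_le_iff₀ hη']
          rw [le_div_iff₀ (by positivity)] at hl0
          calc (d + 2) * l ≤ θ ^ (d + 2) := by rw [mul_comm]; exact hl0
            _ ≤ θ ^ (i + 1 - (a + 1) + 1) := pow_le_pow_of_le_one hθ.le hθ1 (by omega)
            _ = θ * η (a + 1) := pow_succ' _ _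
        linarith
      have hm0 : 0 ≤ fatMass T i f (a + 1) (η (a + 1)) :=
        avg_nonneg _ _ fun σ => by split; exacts [(loc_mem T i f σ).1, le_rfl]
      have hbr : C ^ (d + 2) * (η a / η (a + 1) + (d + 2) * l / η (a + 1)) ≤ κ := by
        rw [hκ, mul_comm 2, mul_assoc]
        exact mul_le_mul_of_nonneg_left hr (by positivity)
      have hsum : fatMass T i f a (η a) + C ^ (d + 2) *
          (η a / η (a + 1) + (d + 2) * l / η (a + 1)) * F ≤ (a + 1) * K ^ a * κ * F := by
        have hKa : 1 ≤ K ^ a := one_le_pow₀ hK1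
        calc _ ≤ a * K ^ a * κ * F + κ * F := add_le_add (ih (by omega))
              (mul_le_mul_of_nonneg_right hbr hF0)
          _ ≤ _ := by nlinarith [mul_nonneg hκ0 hF0]
      have ha1 : ((a + 1 : ℕ) : ℝ) ≤ d + 1 := by exact_mod_cast (show a + 1 ≤ d + 1 by omega)
      have h2 : β * fatMass T i f (a + 1) (η (a + 1)) ≤ (d + 1) * ((a + 1) * K ^ a * κ * F) :=
        h.trans (mul_le_mul ha1 hsum (add_nonneg (avg_nonneg _ _ fun σ => by
          split; exacts [(loc_mem T i f σ).1, le_rfl]) (by positivity)) (by positivity))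
      rw [← le_div_iff₀' hβ0] at h2
      refine h2.trans (le_of_eq ?_)
      rw [hK, pow_succ]
      push_cast
      ring
  have htop : fatMass T i f (i + 1) (η (i + 1)) = F := by
    rw [fatMass, hF, ← avg_loc hT i (i + 1) le_rfl f]
    refine avg_congr T _ fun σ hσ => ?_
    obtain ⟨t, ht, hs, hc⟩ := mem_faces.1 hσ
    have e : loc T i f σ = supp f σ := by
      rw [loc, hc, Nat.sub_self, avg_zero (hT.link σ) ⟨t \ σ, mem_link.2 ⟨t, ht, hs, rfl⟩⟩]
      simp [supp]
    rw [e]
    simp only [η, Nat.sub_self, pow_zero]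
    unfold supp
    split_ifs <;> norm_num at *
  have h := hrec (i + 1) le_rfl
  rw [htop] at h
  have hfac : ((i + 1 : ℕ) : ℝ) * K ^ (i + 1) * κ ≤ 1 / 2 := by
    have e : ((d : ℝ) + 1) * K ^ (d + 1) * κ = 1 / 2 := by
      rw [hκ, hθd, theta, hK]
      field_simp
      ring
    rw [← e]
    refine mul_le_mul_of_nonneg_right (mul_le_mul ?_ (pow_le_pow_right₀ hK1 (by omega))
      (by positivity) (by positivity)) hκ0
    exact_mod_cast (show i + 1 ≤ d + 1 by omega)
  nlinarith [mul_le_mul_of_nonneg_right hfac hF0]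

end Vale.P067.Local
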