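import Vale.Agent.P067.Defs

/-!
# Local-to-global for P067: averages, links and the hypotheses

`T` is the set of top faces of a pure complex, all with `N` vertices. Averages are
taken with respect to: uniform top face, then uniform sub-face of it.
-/

namespace Vale.P067.Local

open Finset

variable {V : Type} [DecidableEq V]

/-- All top faces have `N` vertices. -/
def Uniform (T : Finset (Finset V)) (N : ℕ) : Prop := ∀ t ∈ T, t.card = N

/-- Top faces of the link of `σ`. -/
def link (T : Finset (Finset V)) (σ : Finset V) : Finset (Finset V) :=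
  (star T σ).image (fun t => t \ σ)

/-- Average over faces with `k` vertices. -/
noncomputable def avg (T : Finset (Finset V)) (k : ℕ) (Φ : Finset V → ℝ) : ℝ :=
  (∑ t ∈ T, ∑ S ∈ t.powersetCard k, Φ S) / ∑ t ∈ T, ((t.card.choose k : ℕ) : ℝ)

/-- Average over vertices. -/
noncomputable def avg1 (T : Finset (Finset V)) (g : V → ℝ) : ℝ :=
  (∑ t ∈ T, ∑ u ∈ t, g u) / ∑ t ∈ T, (t.card : ℝ)

/-- The indicator of the support of a cochain. -/
noncomputable def supp (f : Finset V → ZMod 2) (S : Finset V) : ℝ := if f S = 0 then 0 else 1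

/-- The pairing of two vertex functions along a random edge. -/
noncomputable def edge (T : Finset (Finset V)) (g h : V → ℝ) : ℝ :=
  avg1 T (fun u => g u * avg1 (link T {u}) h)

/-- Skeleton expansion: the edge pairing of `[0,1]`-valued functions is small. -/
def Mix (T : Finset (Finset V)) (C l : ℝ) : Prop :=
  ∀ g h : V → ℝ, (∀ u, g u ∈ Set.Icc (0 : ℝ) 1) → (∀ u, h u ∈ Set.Icc (0 : ℝ) 1) →
    edge T g h ≤ C * avg1 T g * avg1 T h + l * Real.sqrt (avg1 T g * avg1 T h)

/-- One-sided spectral expansion of the weighted 1-skeleton, by its quadratic form. -/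
def OneSided (T : Finset (Finset V)) (l : ℝ) : Prop :=
  ∀ f : V → ℝ, edge T f f ≤
    avg1 T f ^ 2 + l * (avg1 T (fun u => f u ^ 2) - avg1 T f ^ 2)

/-- The 1-skeleton is connected. -/
def Connected (T : Finset (Finset V)) : Prop :=
  ∀ f : V → ℝ, (∀ t ∈ T, ∀ u ∈ t, ∀ w ∈ t, f u = f w) →
    ∀ s ∈ T, ∀ t ∈ T, ∀ u ∈ s, ∀ w ∈ t, f u = f w

/-- Links of non-empty faces are `β`-coboundary expanders in the degrees used for `d`:
for a face with `a` vertices, cochains on `k`-vertex faces of the link, `a + k ≤ d + 1`. -/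
def LinkExpansion (T : Finset (Finset V)) (d : ℕ) (β : ℝ) : Prop :=
  ∀ a k : ℕ, 1 ≤ a → 1 ≤ k → a + k ≤ d + 1 → ∀ σ ∈ faces T a, ∀ h : Finset V → ZMod 2,
    ∃ g : Finset V → ZMod 2,
      β * avg (link T σ) k (supp (h + delta (k - 1) g))
        ≤ avg (link T σ) (k + 1) (supp (delta k h))

/-- The `d`-skeleton, given by its `d`-faces. -/
def skeleton (T : Finset (Finset V)) (d : ℕ) : Finset (Finset V) := faces T (d + 1)

end Vale.P067.Local
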