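import Vale.Agent.P067.Local.Sums

/-!
# One-sided spectral expansion: mixing, and Oppenheim's trickling down
-/

namespace Vale.P067.Local

open Finset

variable {V : Type} [DecidableEq V] {T : Finset (Finset V)} {N : ℕ}

lemma avg_one (hT : Uniform T N) (g : V → ℝ) :
    avg T 1 (fun S => ∑ u ∈ S, g u) = avg1 T g := by
  rw [avg_eq hT, avg1_eq hT]; simp [powersetCard_one, sum_map]

lemma avg1_avg1_link (hT : Uniform T N) (hN : 2 ≤ N) (g : V → ℝ) :
    avg1 T (fun u => avg1 (link T {u}) g) = avg1 T g := by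
  rw [← avg_one hT g, ← avg1_avg_link hT 1 (by omega)]
  exact avg1_congr T fun t _ u _ => (avg_one (hT.link {u}) g).symm

lemma avg1_const (hT : Uniform T N) (hne : T.Nonempty) (hN : 1 ≤ N) (c : ℝ) :
    avg1 T (fun _ => c) = c := by
  have h : (0 : ℝ) < (T.card : ℝ) * N := by have := hne.card_pos; positivity
  rw [avg1_eq hT, sum_congr rfl (fun t ht => by rw [sum_const, hT t ht, nsmul_eq_mul]),
    sum_const, nsmul_eq_mul, ← mul_assoc, mul_div_cancel_left₀ _ h.ne']

lemma avg1_eq_zero (hT : Uniform T N) (hne : T.Nonempty) (hN : 1 ≤ N) {g : V → ℝ}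
    (hg : ∀ u, 0 ≤ g u) (h : avg1 T g = 0) : ∀ t ∈ T, ∀ u ∈ t, g u = 0 := by
  have hpos : (0 : ℝ) < (T.card : ℝ) * N := by have := hne.card_pos; positivity
  rw [avg1_eq hT, div_eq_zero_iff, or_iff_left hpos.ne',
    sum_eq_zero_iff_of_nonneg (fun t _ => sum_nonneg fun u _ => hg u)] at h
  exact fun t ht => (sum_eq_zero_iff_of_nonneg fun u _ => hg u).1 (h t ht)

lemma edge_comm (hT : Uniform T N) (g h : V → ℝ) : edge T g h = edge T h g := by
  unfold edge
  calc avg1 T (fun u => g u * avg1 (link T {u}) h)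
      = avg1 T (fun u => avg1 (link T {u}) (fun w => g u * h w)) := by
        simp only [avg1_smul]
    _ = avg1 T (fun u => avg1 (link T {u}) (fun w => g w * h u)) := avg1_swap hT _
    _ = _ := by simp only [mul_comm (g _) (h _), avg1_smul]

lemma edge_add_smul (hT : Uniform T N) (g h : V → ℝ) (x : ℝ) :
    edge T (fun u => g u + x * h u) (fun u => g u + x * h u)
      = edge T g g + x * (2 * edge T g h) + x ^ 2 * edge T h h := by
  have e : edge T h g = edge T g h := edge_comm hT h g
  have expand : ∀ u, (g u + x * h u) * (avg1 (link T {u}) g + x * avg1 (link T {u}) h)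
      = g u * avg1 (link T {u}) g + x * (h u * avg1 (link T {u}) g)
        + (x * (g u * avg1 (link T {u}) h) + x ^ 2 * (h u * avg1 (link T {u}) h)) :=
    fun u => by ring
  rw [edge]
  simp only [avg1_add, avg1_smul, expand]
  unfold edge at e ⊢
  linarith [congrArg (fun y => x * y) e]

lemma edge_nonneg (T : Finset (Finset V)) {g h : V → ℝ} (hg : ∀ u, 0 ≤ g u) (hh : ∀ u, 0 ≤ h u) :
    0 ≤ edge T g h :=
  avg1_nonneg T fun u => mul_nonneg (hg u) (avg1_nonneg _ hh)

/-- One-sided spectral expansion gives skeleton expansion. -/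
theorem Mix.of_oneSided (hT : Uniform T N) {l : ℝ} (hl : 0 ≤ l) (hl1 : l ≤ 1)
    (hs : OneSided T l) : Mix T 2 (6 * Real.sqrt l) := by
  intro g h hg hh
  set a := avg1 T g
  set c := avg1 T h
  set P := edge T g h
  have ha : 0 ≤ a := avg1_nonneg T fun u => (hg u).1
  have hc : 0 ≤ c := avg1_nonneg T fun u => (hh u).1
  have hgg : avg1 T (fun u => g u ^ 2) ≤ a := avg1_mono T fun t _ u _ => by
    nlinarith [(hg u).1, (hg u).2]
  have hhh : avg1 T (fun u => h u ^ 2) ≤ c := avg1_mono T fun t _ u _ => by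
    nlinarith [(hh u).1, (hh u).2]
  have hP : 0 ≤ P := edge_nonneg T (fun u => (hg u).1) fun u => (hh u).1
  -- the quadratic `t ↦ edge (h + t g)` and the one-sided bound
  have key : ∀ x : ℝ, 0 ≤ (2 * a ^ 2 + 2 * l * a) * (x * x) + (-2 * P) * x
      + (2 * c ^ 2 + 2 * l * c) := by
    intro x
    rcases le_or_gt 0 x with hx | hx
    · have h0 := hs (fun u => h u + x * g u)
      rw [edge_add_smul hT, avg1_add, avg1_smul] at h0
      rw [edge_comm hT h g] at h0
      have hsq : avg1 T (fun u => (h u + x * g u) ^ 2)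
          ≤ 2 * avg1 T (fun u => h u ^ 2) + 2 * x ^ 2 * avg1 T (fun u => g u ^ 2) := by
        rw [← avg1_smul, ← avg1_smul, ← avg1_add]
        exact avg1_mono T fun t _ u _ => by nlinarith [sq_nonneg (h u - x * g u)]
      have hgg0 := edge_nonneg T (g := g) (fun u => (hg u).1) fun u => (hg u).1
      have hhh0 := edge_nonneg T (g := h) (fun u => (hh u).1) fun u => (hh u).1
      nlinarith [mul_le_mul_of_nonneg_left hsq hl, mul_le_mul_of_nonneg_left hhh hl,
        mul_le_mul_of_nonneg_left hgg (mul_nonneg hl (sq_nonneg x)),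
        mul_nonneg hl (sq_nonneg (c + x * a)), sq_nonneg (c - x * a), mul_nonneg (sq_nonneg x) hgg0]
    · have h1 : 0 ≤ -2 * P * x := by nlinarith
      have h2 : 0 ≤ (2 * a ^ 2 + 2 * l * a) * (x * x) := mul_nonneg (by positivity) (mul_self_nonneg x)
      have h3 : 0 ≤ 2 * c ^ 2 + 2 * l * c := by positivity
      linarith
  have hd := discrim_le_zero key
  rw [discrim] at hd
  have hs0 := Real.sqrt_nonneg l
  have hsl : Real.sqrt l ^ 2 = l := Real.sq_sqrt hl
  have hsl1 : Real.sqrt l ≤ 1 := Real.sqrt_le_one.2 hl1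
  set s := Real.sqrt l
  have hra := Real.sq_sqrt ha
  have hrc := Real.sq_sqrt hc
  rw [Real.sqrt_mul ha]
  set A := Real.sqrt a
  set B := Real.sqrt c
  have hA : 0 ≤ A := Real.sqrt_nonneg _
  have hB : 0 ≤ B := Real.sqrt_nonneg _
  have hA1 : A ≤ 1 := Real.sqrt_le_one.2 (avg1_le_one T fun u => (hg u).2)
  have hB1 : B ≤ 1 := Real.sqrt_le_one.2 (avg1_le_one T fun u => (hh u).2)
  -- `P² ≤ 4 a c (a + l)(c + l)`
  have hP2 : P ^ 2 ≤ (2 * (A * B) * ((A + s) * (B + s))) ^ 2 := by
    have e : P ^ 2 ≤ 4 * (a * c) * ((a + l) * (c + l)) := by nlinarith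
    refine e.trans ?_
    have e1 : (a + l) * (c + l) ≤ (A + s) ^ 2 * (B + s) ^ 2 :=
      mul_le_mul (by nlinarith [mul_nonneg hA hs0]) (by nlinarith [mul_nonneg hB hs0])
        (by positivity) (by positivity)
    calc 4 * (a * c) * ((a + l) * (c + l)) ≤ 4 * (a * c) * ((A + s) ^ 2 * (B + s) ^ 2) :=
          mul_le_mul_of_nonneg_left e1 (by positivity)
      _ = _ := by rw [← hra, ← hrc]; ring
  have hR : 0 ≤ 2 * (A * B) * ((A + s) * (B + s)) := by positivity
  have hP3 := (pow_le_pow_iff_left₀ hP hR two_ne_zero).1 hP2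
  refine hP3.trans ?_
  rw [← hra, ← hrc]
  have e1 : (A + s) * (B + s) ≤ A * B + 3 * s := by
    nlinarith [mul_le_mul_of_nonneg_right hA1 hs0, mul_le_mul_of_nonneg_left hB1 hs0,
      mul_le_mul_of_nonneg_left hsl1 hs0]
  calc 2 * (A * B) * ((A + s) * (B + s)) ≤ 2 * (A * B) * (A * B + 3 * s) :=
        mul_le_mul_of_nonneg_left e1 (by positivity)
    _ = _ := by ring

lemma variance_nonneg (hT : Uniform T N) (hne : T.Nonempty) (hN : 1 ≤ N) (f : V → ℝ) :
    avg1 T f ^ 2 ≤ avg1 T (fun u => f u ^ 2) := by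
  have h := avg1_nonneg T (g := fun u => (f u - avg1 T f) ^ 2) fun u => sq_nonneg _
  have e : ∀ u, (f u - avg1 T f) ^ 2
      = (f u ^ 2 + -2 * avg1 T f * f u) + avg1 T f ^ 2 := fun u => by ring
  simp only [e, avg1_add, avg1_smul, avg1_const hT hne hN] at h
  nlinarith

lemma OneSided.mono (hT : Uniform T N) (hne : T.Nonempty) (hN : 1 ≤ N) {l l' : ℝ}
    (h : OneSided T l) (hll : l ≤ l') : OneSided T l' := fun f =>
  (h f).trans (by nlinarith [variance_nonneg hT hne hN f])

/-- A maximiser of the Rayleigh quotient among mean-zero functions. -/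
lemma exists_rayleigh_max (hT : Uniform T N) (hne : T.Nonempty) (hN : 1 ≤ N) (f : V → ℝ)
    (hf0 : avg1 T f = 0) (hqpos : 0 < avg1 T (fun u => f u ^ 2)) :
    ∃ g : V → ℝ, avg1 T g = 0 ∧ avg1 T (fun u => g u ^ 2) = 1 ∧
      ∀ y : V → ℝ, avg1 T y = 0 → edge T y y ≤ edge T g g * avg1 T (fun u => y u ^ 2) := by
  set W := T.biUnion id
  set ext' : (W → ℝ) → V → ℝ := fun x u => if h : u ∈ W then x ⟨u, h⟩ else 0 with hext
  have hmemW : ∀ t ∈ T, ∀ u ∈ t, u ∈ W := fun t ht u hu => mem_biUnion.2 ⟨t, ht, hu⟩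
  have hagree : ∀ (y : V → ℝ), ∀ t ∈ T, ∀ u ∈ t, ext' (fun w => y w) u = y u := by
    intro y t ht u hu; simp only [hext, dif_pos (hmemW t ht u hu)]
  have hedge : ∀ (y z : V → ℝ), (∀ t ∈ T, ∀ u ∈ t, y u = z u) → edge T y y = edge T z z :=
    fun y z h => avg1_congr T fun t ht u hu => by
      rw [h t ht u hu]
      congr 1
      refine avg1_congr _ fun r hr w hw => ?_
      obtain ⟨t', ht', -, rfl⟩ := mem_link.1 hr
      exact h t' ht' w (mem_sdiff.1 hw).1
  have hnorm : ∀ (c : ℝ) (y : V → ℝ), avg1 T (fun u => ext' (fun w => c * y w) u ^ 2)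
      = c ^ 2 * avg1 T (fun u => y u ^ 2) := fun c y => by
    rw [← avg1_smul]
    refine avg1_congr T fun t ht u hu => ?_
    rw [hagree (fun u => c * y u) t ht u hu]; ring
  have hscale : ∀ (c : ℝ) (y : V → ℝ),
      edge T (fun u => c * y u) (fun u => c * y u) = c ^ 2 * edge T y y := by
    intro c y
    unfold edge
    simp only [avg1_smul]
    rw [← avg1_smul]
    exact avg1_congr T fun t _ u _ => by ring
  set K : Set (W → ℝ) := {x | avg1 T (ext' x) = 0 ∧ avg1 T (fun u => ext' x u ^ 2) = 1}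
  set c := 1 / Real.sqrt (avg1 T fun u => f u ^ 2)
  have hc2 : c ^ 2 * avg1 T (fun u => f u ^ 2) = 1 := by
    rw [div_pow, one_pow, Real.sq_sqrt hqpos.le, one_div_mul_cancel hqpos.ne']
  have hKne : (fun w : W => c * f w) ∈ K := by
    constructor
    · rw [avg1_congr T (hagree fun u => c * f u), avg1_smul, hf0, mul_zero]
    · rw [hnorm]; exact hc2
  have hcont : ∀ u : V, Continuous fun x : W → ℝ => ext' x u := by
    intro u
    by_cases h : u ∈ W
    · simp only [hext, dif_pos h]; exact continuous_apply _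
    · simp only [hext, dif_neg h]; exact continuous_const
  have hca : ∀ (S : Finset (Finset V)) (F : (W → ℝ) → V → ℝ), (∀ u, Continuous fun x => F x u) →
      Continuous fun x => avg1 S (F x) := by
    intro S F hF
    unfold avg1
    exact (continuous_finsetSum _ fun t _ => continuous_finsetSum _ fun u _ => hF u).div_const _
  have hclosed : IsClosed K :=
    (isClosed_eq (hca T _ hcont) continuous_const).inter
      (isClosed_eq (hca T _ fun u => (hcont u).pow 2) continuous_const)
  have hpos : (0 : ℝ) < (T.card : ℝ) * N := by have := hne.card_pos; positivity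
  have hsub : K ⊆ Metric.closedBall 0 (Real.sqrt ((T.card : ℝ) * N)) := by
    intro x hx
    rw [mem_closedBall_zero_iff, pi_norm_le_iff_of_nonneg (Real.sqrt_nonneg _)]
    intro w
    rw [Real.norm_eq_abs]
    refine Real.abs_le_sqrt ?_
    obtain ⟨t, ht, hwt⟩ := mem_biUnion.1 w.2
    have h1 := hx.2
    rw [avg1_eq hT, div_eq_one_iff_eq hpos.ne'] at h1
    have e : ext' x w = x w := by simp only [hext, dif_pos w.2]
    rw [← h1, ← e]
    exact le_trans (single_le_sum (f := fun u => ext' x u ^ 2) (fun u _ => sq_nonneg _) hwt)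
      (single_le_sum (f := fun t => ∑ u ∈ t, ext' x u ^ 2)
        (fun t _ => sum_nonneg fun u _ => sq_nonneg _) ht)
  have hcpt : IsCompact K := (isCompact_closedBall _ _).of_isClosed_subset hclosed hsub
  set Φ : (W → ℝ) → ℝ := fun x => edge T (ext' x) (ext' x) with hΦ
  have hΦc : Continuous Φ := hca T (fun x u => ext' x u * avg1 (link T {u}) (ext' x))
    fun u => (hcont u).mul (hca (link T {u}) ext' hcont)
  obtain ⟨x, hxK, hmax⟩ := hcpt.exists_isMaxOn ⟨_, hKne⟩ hΦc.continuousOn
  clear_value Φ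
  refine ⟨ext' x, hxK.1, hxK.2, fun y hy0 => ?_⟩
  rcases (avg1_nonneg T fun u => sq_nonneg (y u)).eq_or_lt with h | h
  · have hz := avg1_eq_zero hT hne hN (fun u => sq_nonneg (y u)) h.symm
    rw [← h, mul_zero, hedge y (fun _ => 0) (fun t ht u hu => by simpa using hz t ht u hu)]
    simp [edge, avg1]
  · set b := 1 / Real.sqrt (avg1 T fun u => y u ^ 2)
    have hb2 : b ^ 2 * avg1 T (fun u => y u ^ 2) = 1 := by
      rw [div_pow, one_pow, Real.sq_sqrt h.le, one_div_mul_cancel h.ne']
    have hmem : (fun w : W => b * y w) ∈ K := by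
      constructor
      · rw [avg1_congr T (hagree fun u => b * y u), avg1_smul, hy0, mul_zero]
      · rw [hnorm]; exact hb2
    have h1 : Φ (fun w => b * y w) ≤ Φ x := isMaxOn_iff.1 hmax _ hmem
    rw [hΦ] at h1
    dsimp only at h1
    rw [hedge _ (fun u => b * y u) (hagree fun u => b * y u), hscale] at h1
    calc edge T y y = (b ^ 2 * avg1 T (fun u => y u ^ 2)) * edge T y y := by rw [hb2, one_mul]
      _ = avg1 T (fun u => y u ^ 2) * (b ^ 2 * edge T y y) := by ring
      _ ≤ avg1 T (fun u => y u ^ 2) * edge T (ext' x) (ext' x) :=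
          mul_le_mul_of_nonneg_left h1 h.le
      _ = _ := mul_comm _ _

/-- **Trickling down** (one step). -/
theorem OneSided.trickle (hT : Uniform T N) (hne : T.Nonempty) (hN : 3 ≤ N) {l : ℝ} (hl1 : l < 1)
    (hcon : Connected T) (hv : ∀ t ∈ T, ∀ v ∈ t, OneSided (link T {v}) l) :
    OneSided T (l / (1 - l)) := by
  -- it suffices to treat mean-zero functions
  suffices main : ∀ f : V → ℝ, avg1 T f = 0 →
      edge T f f ≤ l / (1 - l) * avg1 T (fun u => f u ^ 2) by
    intro f
    set m := avg1 T f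
    set f0 : V → ℝ := fun u => f u + -m * 1
    have h0 : avg1 T f0 = 0 := by
      simp only [f0, avg1_add, avg1_smul, avg1_const hT hne (by omega : 1 ≤ N)]; ring
    have e1 : edge T f f = edge T f0 f0 + m ^ 2 := by
      have e : edge T f0 f0
          = edge T f f + -m * (2 * edge T f (fun _ => 1)) + (-m) ^ 2 * edge T (fun _ => 1) (fun _ => 1) :=
        edge_add_smul hT f (fun _ => 1) (-m)
      have o1 : edge T f (fun _ => 1) = m := by
        rw [edge_comm hT]; simp only [edge, one_mul]; exact avg1_avg1_link hT (by omega) f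
      have o2 : edge T (fun _ : V => (1 : ℝ)) (fun _ => 1) = 1 := by
        simp only [edge, one_mul]
        rw [avg1_avg1_link hT (by omega), avg1_const hT hne (by omega)]
      rw [o1, o2] at e
      linarith
    have e2 : avg1 T (fun u => f0 u ^ 2) = avg1 T (fun u => f u ^ 2) - m ^ 2 := by
      have e : ∀ u, f0 u ^ 2 = (f u ^ 2 + -2 * m * f u) + m ^ 2 := fun u => by simp only [f0]; ring
      simp only [e, avg1_add, avg1_smul, avg1_const hT hne (by omega : 1 ≤ N)]
      ring
    have := main f0 h0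
    rw [e2] at this
    linarith
  intro f hf0
  by_contra hbad
  push Not at hbad
  set q := avg1 T (fun u => f u ^ 2) with hq
  have hqpos : 0 < q := by
    refine lt_of_le_of_ne (avg1_nonneg T fun u => sq_nonneg _) (fun h => ?_)
    have hz := avg1_eq_zero hT hne (by omega) (fun u => sq_nonneg (f u)) h.symm
    have e : edge T f f = 0 := by
      rw [edge, avg1_congr T (h := fun _ => (0 : ℝ)) fun t ht u hu => by
        rw [show f u = 0 by simpa using hz t ht u hu, zero_mul]]
      simp [avg1]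
    rw [← h, mul_zero, e] at hbad
    exact lt_irrefl _ hbad
  obtain ⟨g, hg0, hg1, hray⟩ := exists_rayleigh_max hT hne (by omega) f hf0 hqpos
  set μ := edge T g g
  have hμbig : l / (1 - l) < μ := by
    have := hray f hf0
    by_contra hle
    push Not at hle
    nlinarith [mul_le_mul_of_nonneg_right hle hqpos.le]
  -- `g` is an eigenfunction
  set Pg : V → ℝ := fun u => avg1 (link T {u}) g
  have hPg0 : avg1 T Pg = 0 := (avg1_avg1_link hT (by omega) g).trans hg0
  set r : V → ℝ := fun u => Pg u + -μ * g u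
  have hr0 : avg1 T r = 0 := by simp only [r, avg1_add, avg1_smul, hPg0, hg0]; ring
  have hgr : edge T g r = avg1 T (fun u => r u * Pg u) := edge_comm hT g r
  have heig : ∀ t ∈ T, ∀ u ∈ t, Pg u = μ * g u := by
    set R := avg1 T (fun u => r u ^ 2)
    have eR : R = edge T g r + -μ * avg1 T (fun u => g u * r u) := by
      rw [hgr, ← avg1_smul, ← avg1_add]
      exact avg1_congr T fun t _ u _ => by simp only [r]; ring
    have hd := discrim_le_zero (a := μ * R - edge T r r) (b := -2 * R) (c := 0) (fun ε => by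
      have h0 : avg1 T (fun u => g u + ε * r u) = 0 := by
        rw [avg1_add, avg1_smul, hg0, hr0]; ring
      have h1 := hray _ h0
      rw [edge_add_smul hT] at h1
      have e2 : avg1 T (fun u => (g u + ε * r u) ^ 2)
          = 1 + ε * (2 * avg1 T (fun u => g u * r u)) + ε ^ 2 * R := by
        have e : ∀ u, (g u + ε * r u) ^ 2
            = g u ^ 2 + ε * (2 * (g u * r u)) + ε ^ 2 * r u ^ 2 := fun u => by ring
        simp only [e, avg1_add, avg1_smul, hg1]
        rfl
      rw [e2] at h1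
      have eR' : 2 * ε * R
          = 2 * ε * (edge T g r + -μ * avg1 T (fun u => g u * r u)) := by rw [← eR]
      linarith)
    rw [discrim] at hd
    have hR : R = 0 := by nlinarith [sq_nonneg R]
    intro t ht u hu
    have := avg1_eq_zero hT hne (by omega) (fun u => sq_nonneg (r u)) hR t ht u hu
    have : r u = 0 := by simpa using this
    simp only [r] at this
    linarith
  -- `μ < 1`
  have hμ1 : μ < 1 := by
    set D : V → ℝ := fun u => avg1 (link T {u}) (fun w => (g u - g w) ^ 2)
    have eD : avg1 T D = 2 - 2 * μ := by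
      have e : ∀ t ∈ T, ∀ u ∈ t, D u
          = g u ^ 2 + avg1 (link T {u}) (fun w => g w ^ 2) + -2 * (g u * Pg u) := by
        intro t ht u hu
        have e' : ∀ w, (g u - g w) ^ 2 = (g u ^ 2 + g w ^ 2) + -2 * (g u * g w) := fun w => by ring
        simp only [D, e', avg1_add, avg1_smul, Pg]
        rw [avg1_const (hT.link {u}) ⟨t \ {u}, mem_link.2 ⟨t, ht, by simpa using hu, rfl⟩⟩
          (by simp; omega)]
      rw [avg1_congr T e, avg1_add, avg1_add, avg1_smul, hg1, avg1_avg1_link hT (by omega), hg1]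
      show 1 + 1 + -2 * μ = _
      ring
    have hD0 : ∀ u, 0 ≤ D u := fun u => avg1_nonneg _ fun w => sq_nonneg _
    by_contra hge
    push Not at hge
    have hD : avg1 T D = 0 := le_antisymm (by linarith) (avg1_nonneg T hD0)
    have hz := avg1_eq_zero hT hne (by omega) hD0 hD
    have hloc : ∀ t ∈ T, ∀ u ∈ t, ∀ w ∈ t, g u = g w := by
      intro t ht u hu w hw
      by_cases huw : w = u
      · rw [huw]
      have hmem : t \ {u} ∈ link T {u} := mem_link.2 ⟨t, ht, by simpa using hu, rfl⟩
      have := avg1_eq_zero (hT.link {u}) ⟨_, hmem⟩ (by simp; omega) (fun w => sq_nonneg _)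
        (hz t ht u hu) _ hmem w (by simp [hw, huw])
      simpa [sub_eq_zero] using this
    have hconst := hcon g hloc
    obtain ⟨t₀, ht₀⟩ := hne
    obtain ⟨v, hvt⟩ := card_pos.1 (show 0 < t₀.card by rw [hT t₀ ht₀]; omega)
    have e : avg1 T g = g v := by
      rw [avg1_congr T (h := fun _ => g v) fun t ht u hu => hconst t ht t₀ ht₀ u hu v hvt,
        avg1_const hT ⟨t₀, ht₀⟩ (by omega)]
    have e2 : avg1 T (fun u => g u ^ 2) = 0 := by
      rw [avg1_congr T (h := fun _ => (0:ℝ)) fun t ht u hu => by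
        rw [hconst t ht t₀ ht₀ u hu v hvt, ← e, hg0]; norm_num,
        avg1_const hT ⟨t₀, ht₀⟩ (by omega)]
    linarith
  -- localise
  have hquad : μ ≤ (1 - l) * μ ^ 2 + l := by
    have e1 : μ = avg1 T (fun v => edge (link T {v}) g g) := by
      calc μ = avg1 T (fun u => avg1 (link T {u})
            (fun w => g u * avg1 (link (link T {u}) {w}) g)) := by
            refine avg1_congr T fun t ht u hu => ?_
            rw [avg1_smul, avg1_avg1_link (hT.link {u}) (by simp; omega)]
        _ = avg1 T (fun u => avg1 (link T {u})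
            (fun w => g w * avg1 (link (link T {w}) {u}) g)) := avg1_swap hT _
        _ = _ := by
            refine avg1_congr T fun t ht v hv' => ?_
            refine avg1_congr _ fun r hr u hu => ?_
            obtain ⟨t', -, -, rfl⟩ := mem_link.1 hr
            simp only [mem_sdiff, mem_singleton] at hu
            rw [link_link T (by simpa using Ne.symm hu.2), link_link T (by simpa using hu.2),
              pair_comm]
    have e2 : avg1 T (fun v => edge (link T {v}) g g)
        ≤ avg1 T (fun v => (1 - l) * Pg v ^ 2 + l * avg1 (link T {v}) (fun u => g u ^ 2)) :=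
      avg1_mono T fun t ht v hvt => (hv t ht v hvt g).trans (le_of_eq (by simp only [Pg]; ring))
    have e3 : avg1 T (fun v => Pg v ^ 2) = μ ^ 2 := by
      rw [avg1_congr T (h := fun v => μ ^ 2 * g v ^ 2) fun t ht u hu => by rw [heig t ht u hu]; ring,
        avg1_smul, hg1, mul_one]
    rw [avg1_add, avg1_smul, avg1_smul, e3, avg1_avg1_link hT (by omega), hg1] at e2
    linarith
  have : l < μ * (1 - l) := (div_lt_iff₀ (by linarith)).1 hμbig
  nlinarith [mul_pos (sub_pos.2 hμ1) (sub_pos.2 this)]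

/-- **Trickling down to all links**, from the links of codimension two. -/
theorem oneSided_all (hT : Uniform T N) {l : ℝ} (hl : 0 ≤ l) (hlN : (N : ℝ) * l ≤ 1 / 2)
    (hcon : ∀ a, a + 3 ≤ N → ∀ σ ∈ faces T a, Connected (link T σ))
    (htop : ∀ a, a + 2 = N → ∀ σ ∈ faces T a, OneSided (link T σ) l) :
    ∀ a, a + 2 ≤ N → ∀ σ ∈ faces T a, OneSided (link T σ) (2 * l) := by
  have key : ∀ j a, a + 2 + j = N → ∀ σ ∈ faces T a, OneSided (link T σ) (l / (1 - j * l)) := by
    intro j
    induction j with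
    | zero => intro a ha σ hσ; simpa using htop a (by omega) σ hσ
    | succ j ih =>
      intro a ha σ hσ
      obtain ⟨t₀, ht₀, hσt, hσc⟩ := mem_faces.1 hσ
      have hjN : ((j : ℝ) + 1) * l ≤ 1 / 2 := by
        refine le_trans (mul_le_mul_of_nonneg_right ?_ hl) hlN
        exact_mod_cast (show j + 1 ≤ N by omega)
      have hden : 0 < 1 - (j : ℝ) * l := by linarith
      have hstep := OneSided.trickle (hσc ▸ hT.link σ : Uniform (link T σ) (N - a))
        ⟨t₀ \ σ, mem_link.2 ⟨t₀, ht₀, hσt, rfl⟩⟩ (by omega) (l := l / (1 - j * l))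
        (by rw [div_lt_one hden]; linarith) (hcon a (by omega) σ hσ) (fun r hr v hv => by
          obtain ⟨t, ht, hst, rfl⟩ := mem_link.1 hr
          simp only [mem_sdiff] at hv
          rw [link_link T hv.2]
          exact ih (a + 1) (by omega) _ (mem_faces.2 ⟨t, ht, insert_subset hv.1 hst,
            by rw [card_insert_of_notMem hv.2, hσc]⟩))
      have e : l / (1 - j * l) / (1 - l / (1 - j * l)) = l / (1 - ((j + 1 : ℕ) : ℝ) * l) := by
        push_cast
        rw [one_sub_div hden.ne', div_div_div_cancel_right₀ hden.ne']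
        ring_nf
      rwa [e] at hstep
  intro a ha σ hσ
  obtain ⟨j, hj⟩ : ∃ j, a + 2 + j = N := ⟨N - a - 2, by omega⟩
  obtain ⟨t₀, ht₀, hσt, hσc⟩ := mem_faces.1 hσ
  refine (key j a hj σ hσ).mono (hT.link σ) ⟨t₀ \ σ, mem_link.2 ⟨t₀, ht₀, hσt, rfl⟩⟩
    (by omega) ?_
  have hjN : (j : ℝ) * l ≤ 1 / 2 :=
    le_trans (mul_le_mul_of_nonneg_right (by exact_mod_cast (show j ≤ N by omega)) hl) hlN
  rw [div_le_iff₀ (by linarith)]
  nlinarith

/-- Skeleton expansion of all links from connectivity and the codimension-two links. -/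
theorem mix_all (hT : Uniform T N) {l : ℝ} (hl : 0 ≤ l) (hl4 : l ≤ 1 / 2)
    (hlN : (N : ℝ) * l ≤ 1 / 2)
    (hcon : ∀ a, a + 3 ≤ N → ∀ σ ∈ faces T a, Connected (link T σ))
    (htop : ∀ a, a + 2 = N → ∀ σ ∈ faces T a, OneSided (link T σ) l) :
    ∀ a, a + 2 ≤ N → ∀ σ ∈ faces T a, Mix (link T σ) 2 (6 * Real.sqrt (2 * l)) :=
  fun a ha σ hσ => Mix.of_oneSided (hT.link σ) (by linarith) (by linarith)
    (oneSided_all hT hl hlN hcon htop a ha σ hσ)

end Vale.P067.Local
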