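import Vale.Agent.P067.Local.Basic

/-!
# Double-counting identities for averages over faces
-/

namespace Vale.P067.Local

open Finset

variable {V : Type} [DecidableEq V] {T : Finset (Finset V)} {N : ℕ}

lemma mem_link {T : Finset (Finset V)} {σ r : Finset V} :
    r ∈ link T σ ↔ ∃ t ∈ T, σ ⊆ t ∧ t \ σ = r := by
  simp [link, star, and_assoc]

lemma mem_faces {T : Finset (Finset V)} {k : ℕ} {s : Finset V} :
    s ∈ faces T k ↔ ∃ t ∈ T, s ⊆ t ∧ s.card = k := by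
  simp [faces, mem_powersetCard]

lemma Uniform.link (hT : Uniform T N) (σ : Finset V) : Uniform (link T σ) (N - σ.card) := by
  intro r hr
  obtain ⟨t, ht, hs, rfl⟩ := mem_link.1 hr
  rw [card_sdiff_of_subset hs, hT t ht]

lemma injOn_sdiff (T : Finset (Finset V)) (σ : Finset V) :
    Set.InjOn (fun t => t \ σ) (star T σ : Set (Finset V)) := by
  intro a ha b hb h
  simp only [star, coe_filter, Set.mem_ofPred_eq] at ha hb
  have := congrArg (fun r => r ∪ σ) h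
  simpa [sdiff_union_of_subset ha.2, sdiff_union_of_subset hb.2] using this

lemma sum_link {M : Type} [AddCommMonoid M] (T : Finset (Finset V)) (σ : Finset V)
    (Φ : Finset V → M) : ∑ r ∈ link T σ, Φ r = ∑ t ∈ star T σ, Φ (t \ σ) := by
  rw [link, sum_image (injOn_sdiff T σ)]

lemma card_link (T : Finset (Finset V)) (σ : Finset V) : (link T σ).card = (star T σ).card := by
  rw [link, card_image_of_injOn (injOn_sdiff T σ)]

lemma link_link {u : V} {ρ : Finset V} (T : Finset (Finset V)) (hu : u ∉ ρ) :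
    link (link T ρ) {u} = link T (insert u ρ) := by
  ext r
  simp only [mem_link]
  constructor
  · rintro ⟨_, ⟨t, ht, hρ, rfl⟩, hut, rfl⟩
    simp only [singleton_subset_iff, mem_sdiff] at hut
    refine ⟨t, ht, insert_subset hut.1 hρ, ?_⟩
    ext x; simp; tauto
  · rintro ⟨t, ht, hs, rfl⟩
    rw [insert_subset_iff] at hs
    refine ⟨t \ ρ, ⟨t, ht, hs.2, rfl⟩, by simp [hs.1, hu], ?_⟩
    ext x; simp; tauto

lemma avg_eq (hT : Uniform T N) (k : ℕ) (Φ : Finset V → ℝ) :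
    avg T k Φ = (∑ t ∈ T, ∑ S ∈ t.powersetCard k, Φ S) / ((T.card : ℝ) * (N.choose k : ℕ)) := by
  rw [avg]
  congr 1
  rw [sum_congr rfl (fun t ht => by rw [hT t ht]), sum_const, nsmul_eq_mul]

lemma avg1_eq (hT : Uniform T N) (g : V → ℝ) :
    avg1 T g = (∑ t ∈ T, ∑ u ∈ t, g u) / ((T.card : ℝ) * N) := by
  rw [avg1]
  congr 1
  rw [sum_congr rfl (fun t ht => by rw [hT t ht]), sum_const, nsmul_eq_mul]

lemma avg_add (T : Finset (Finset V)) (k : ℕ) (Φ Ψ : Finset V → ℝ) :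
    avg T k (fun S => Φ S + Ψ S) = avg T k Φ + avg T k Ψ := by
  simp [avg, sum_add_distrib, add_div]

lemma avg_smul (T : Finset (Finset V)) (k : ℕ) (c : ℝ) (Φ : Finset V → ℝ) :
    avg T k (fun S => c * Φ S) = c * avg T k Φ := by
  simp [avg, ← mul_sum, mul_div_assoc]

lemma avg_sum {ι : Type} (T : Finset (Finset V)) (k : ℕ) (s : Finset ι)
    (Φ : ι → Finset V → ℝ) :
    avg T k (fun S => ∑ i ∈ s, Φ i S) = ∑ i ∈ s, avg T k (Φ i) := by
  simp only [avg, ← sum_div]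
  congr 1
  rw [sum_comm]
  exact sum_congr rfl (fun t _ => sum_comm)

lemma avg_mono (T : Finset (Finset V)) (k : ℕ) {Φ Ψ : Finset V → ℝ}
    (h : ∀ S ∈ faces T k, Φ S ≤ Ψ S) : avg T k Φ ≤ avg T k Ψ := by
  unfold avg
  gcongr with t ht S hS
  exact h S (mem_biUnion.2 ⟨t, ht, hS⟩)

lemma avg_congr (T : Finset (Finset V)) (k : ℕ) {Φ Ψ : Finset V → ℝ}
    (h : ∀ S ∈ faces T k, Φ S = Ψ S) : avg T k Φ = avg T k Ψ :=
  le_antisymm (avg_mono T k fun S hS => (h S hS).le) (avg_mono T k fun S hS => (h S hS).ge)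

lemma avg_nonneg (T : Finset (Finset V)) (k : ℕ) {Φ : Finset V → ℝ} (h : ∀ S, 0 ≤ Φ S) :
    0 ≤ avg T k Φ :=
  div_nonneg (sum_nonneg fun _ _ => sum_nonneg fun S _ => h S)
    (sum_nonneg fun _ _ => Nat.cast_nonneg _)

lemma avg_le_one (T : Finset (Finset V)) (k : ℕ) {Φ : Finset V → ℝ} (h : ∀ S, Φ S ≤ 1) :
    avg T k Φ ≤ 1 := by
  unfold avg
  refine div_le_one_of_le₀ (sum_le_sum fun t _ => ?_) (sum_nonneg fun _ _ => Nat.cast_nonneg _)
  calc ∑ S ∈ t.powersetCard k, Φ S ≤ ∑ S ∈ t.powersetCard k, (1 : ℝ) := sum_le_sum fun S _ => h S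
    _ = _ := by simp [card_powersetCard]

lemma avg1_nonneg (T : Finset (Finset V)) {g : V → ℝ} (h : ∀ u, 0 ≤ g u) : 0 ≤ avg1 T g :=
  div_nonneg (sum_nonneg fun _ _ => sum_nonneg fun u _ => h u)
    (sum_nonneg fun _ _ => Nat.cast_nonneg _)

lemma avg1_le_one (T : Finset (Finset V)) {g : V → ℝ} (h : ∀ u, g u ≤ 1) : avg1 T g ≤ 1 := by
  unfold avg1
  refine div_le_one_of_le₀ (sum_le_sum fun t _ => ?_) (sum_nonneg fun _ _ => Nat.cast_nonneg _)
  calc ∑ u ∈ t, g u ≤ ∑ u ∈ t, (1 : ℝ) := sum_le_sum fun u _ => h u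
    _ = _ := by simp

lemma avg1_mono (T : Finset (Finset V)) {g h : V → ℝ} (hgh : ∀ t ∈ T, ∀ u ∈ t, g u ≤ h u) :
    avg1 T g ≤ avg1 T h := by
  unfold avg1
  gcongr with t ht u hu
  exact hgh t ht u hu

lemma avg1_congr (T : Finset (Finset V)) {g h : V → ℝ} (hgh : ∀ t ∈ T, ∀ u ∈ t, g u = h u) :
    avg1 T g = avg1 T h :=
  le_antisymm (avg1_mono T fun t ht u hu => (hgh t ht u hu).le)
    (avg1_mono T fun t ht u hu => (hgh t ht u hu).ge)

lemma avg1_add (T : Finset (Finset V)) (g h : V → ℝ) :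
    avg1 T (fun u => g u + h u) = avg1 T g + avg1 T h := by
  simp [avg1, sum_add_distrib, add_div]

lemma avg1_smul (T : Finset (Finset V)) (c : ℝ) (g : V → ℝ) :
    avg1 T (fun u => c * g u) = c * avg1 T g := by
  simp [avg1, ← mul_sum, mul_div_assoc]

lemma avg_zero (hT : Uniform T N) (hne : T.Nonempty) (Φ : Finset V → ℝ) :
    avg T 0 Φ = Φ ∅ := by
  have : (T.card : ℝ) ≠ 0 := by exact_mod_cast hne.card_pos.ne'
  rw [avg_eq hT]
  simp [powersetCard_zero]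
  field_simp

/-- Reindexing `(S, u ∈ S) ↦ (S.erase u, u)`. -/
lemma sum_erase_reindex {M : Type} [AddCommMonoid M] (t : Finset V) (a : ℕ)
    (Φ : Finset V → V → M) :
    ∑ S ∈ t.powersetCard (a + 1), ∑ u ∈ S, Φ (S.erase u) u
      = ∑ ρ ∈ t.powersetCard a, ∑ u ∈ t \ ρ, Φ ρ u := by
  rw [sum_sigma', sum_sigma']
  refine sum_bij' (fun x _ => ⟨x.1.erase x.2, x.2⟩) (fun y _ => ⟨insert y.2 y.1, y.2⟩)
    ?_ ?_ ?_ ?_ ?_
  · rintro ⟨S, u⟩ h
    simp only [mem_sigma, mem_powersetCard] at h ⊢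
    refine ⟨⟨(erase_subset _ _).trans h.1.1, ?_⟩, ?_⟩
    · rw [card_erase_of_mem h.2, h.1.2]; rfl
    · simp [h.1.1 h.2]
  · rintro ⟨ρ, u⟩ h
    simp only [mem_sigma, mem_powersetCard, mem_sdiff] at h ⊢
    exact ⟨⟨insert_subset h.2.1 h.1.1, by rw [card_insert_of_notMem h.2.2, h.1.2]⟩,
      mem_insert_self _ _⟩
  · rintro ⟨S, u⟩ h
    simp only [mem_sigma] at h
    simp [insert_erase h.2]
  · rintro ⟨ρ, u⟩ h
    simp only [mem_sigma, mem_sdiff] at h
    simp [erase_insert h.2.2]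
  · intros; rfl

/-- Sum over `a`-faces `σ` of a sum over `b`-faces of the link of `σ`, flattened. -/
lemma sum_star_flat (T : Finset (Finset V)) (a : ℕ) (Φ : Finset V → Finset V → ℝ) :
    ∑ σ ∈ faces T a, ∑ t ∈ star T σ, Φ σ t
      = ∑ t ∈ T, ∑ σ ∈ t.powersetCard a, Φ σ t := by
  symm
  refine sum_comm' ?_
  intro t σ
  simp only [star, mem_filter, mem_powersetCard, mem_faces]
  constructor
  · rintro ⟨ht, hs, hc⟩
    exact ⟨⟨ht, hs⟩, t, ht, hs, hc⟩
  · rintro ⟨⟨ht, hs⟩, t', ht', hs', hc⟩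
    exact ⟨ht, hs, hc⟩

/-- Averaging, over `a`-faces, a quotient `A σ / #star σ`. -/
lemma sum_div_star (T : Finset (Finset V)) (a : ℕ) (A : Finset V → Finset V → ℝ) :
    ∑ t ∈ T, ∑ σ ∈ t.powersetCard a, (∑ t' ∈ star T σ, A σ t') / ((star T σ).card : ℝ)
      = ∑ t ∈ T, ∑ σ ∈ t.powersetCard a, A σ t := by
  rw [← sum_star_flat, ← sum_star_flat]
  refine sum_congr rfl fun σ hσ => ?_
  obtain ⟨t, ht, hs, -⟩ := mem_faces.1 hσ
  have hne : ((star T σ).card : ℝ) ≠ 0 := by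
    have : t ∈ star T σ := by simp [star, ht, hs]
    exact_mod_cast (card_pos.2 ⟨t, this⟩).ne'
  rw [sum_const, nsmul_eq_mul, mul_div_cancel₀ _ hne]

/-- `E_σ E^σ_R Φ(σ,R)` flattened. -/
lemma avg_avg_link (hT : Uniform T N) (a b : ℕ) (Φ : Finset V → Finset V → ℝ) :
    avg T a (fun σ => avg (link T σ) b (Φ σ))
      = (∑ t ∈ T, ∑ σ ∈ t.powersetCard a, ∑ R ∈ (t \ σ).powersetCard b, Φ σ R)
          / ((T.card : ℝ) * (N.choose a : ℕ) * ((N - a).choose b : ℕ)) := by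
  rw [avg_eq hT, ← sum_div_star T a (fun σ t => ∑ R ∈ (t \ σ).powersetCard b, Φ σ R)]
  have e : ∀ t ∈ T, ∀ σ ∈ t.powersetCard a, avg (link T σ) b (Φ σ)
      = (∑ t' ∈ star T σ, ∑ R ∈ (t' \ σ).powersetCard b, Φ σ R) / ((star T σ).card : ℝ)
          / ((N - a).choose b : ℕ) := by
    intro t _ σ hσ
    rw [avg_eq (hT.link σ), card_link, sum_link, (mem_powersetCard.1 hσ).2, div_div]
  rw [sum_congr rfl (fun t ht => sum_congr rfl (e t ht))]
  simp only [← sum_div]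
  rw [div_div]
  ring

/-- `E_σ E^σ_u Ψ(σ,u)` flattened. -/
lemma avg_avg1_link (hT : Uniform T N) (a : ℕ) (Ψ : Finset V → V → ℝ) :
    avg T a (fun σ => avg1 (link T σ) (Ψ σ))
      = (∑ t ∈ T, ∑ σ ∈ t.powersetCard a, ∑ u ∈ t \ σ, Ψ σ u)
          / ((T.card : ℝ) * (N.choose a : ℕ) * (N - a : ℕ)) := by
  rw [avg_eq hT, ← sum_div_star T a (fun σ t => ∑ u ∈ t \ σ, Ψ σ u)]
  have e : ∀ t ∈ T, ∀ σ ∈ t.powersetCard a, avg1 (link T σ) (Ψ σ)
      = (∑ t' ∈ star T σ, ∑ u ∈ t' \ σ, Ψ σ u) / ((star T σ).card : ℝ) / (N - a : ℕ) := by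
    intro t _ σ hσ
    rw [avg1_eq (hT.link σ), card_link, sum_link, (mem_powersetCard.1 hσ).2, div_div]
  rw [sum_congr rfl (fun t ht => sum_congr rfl (e t ht))]
  simp only [← sum_div]
  rw [div_div]
  ring

/-- `E_σ Σ_{u ∈ σ} Ψ(σ - u, u) = |σ| · E_ρ E^ρ_u Ψ(ρ,u)`. -/
lemma avg_sum_vertices (hT : Uniform T N) (a : ℕ) (Ψ : Finset V → V → ℝ) :
    avg T (a + 1) (fun σ => ∑ u ∈ σ, Ψ (σ.erase u) u)
      = (a + 1 : ℕ) * avg T a (fun ρ => avg1 (link T ρ) (Ψ ρ)) := by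
  rw [avg_avg1_link hT, avg_eq hT]
  simp only [sum_erase_reindex]
  have hc : ((N.choose (a + 1) : ℕ) : ℝ) * ((a + 1 : ℕ) : ℝ)
      = ((N.choose a : ℕ) : ℝ) * ((N - a : ℕ) : ℝ) := by
    exact_mod_cast Nat.choose_succ_right_eq N a
  have h0 : ((a + 1 : ℕ) : ℝ) ≠ 0 := by positivity
  rw [mul_assoc (T.card : ℝ), ← hc, ← mul_assoc, div_mul_eq_div_div _ _ ((a + 1 : ℕ) : ℝ),
    mul_div_cancel₀ _ h0]

/-- Reindexing `(σ, R) ↦ σ ∪ R`. -/
lemma sum_union_reindex (t : Finset V) (a b : ℕ) (F : Finset V → ℝ) :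
    ∑ σ ∈ t.powersetCard a, ∑ R ∈ (t \ σ).powersetCard b, F (σ ∪ R)
      = ((a + b).choose a : ℕ) * ∑ S ∈ t.powersetCard (a + b), F S := by
  have e : ∀ S ∈ t.powersetCard (a + b), ((a + b).choose a : ℕ) * F S
      = ∑ _σ ∈ S.powersetCard a, F S := by
    intro S hS
    rw [sum_const, card_powersetCard, (mem_powersetCard.1 hS).2, nsmul_eq_mul]
  rw [mul_sum, sum_congr rfl e, sum_sigma', sum_sigma']
  refine sum_bij' (fun x _ => ⟨x.1 ∪ x.2, x.1⟩) (fun y _ => ⟨y.2, y.1 \ y.2⟩) ?_ ?_ ?_ ?_ ?_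
  · rintro ⟨σ, R⟩ h
    simp only [mem_sigma, mem_powersetCard] at h ⊢
    have hd : Disjoint σ R := disjoint_left.2 fun x hx hR => (mem_sdiff.1 (h.2.1 hR)).2 hx
    refine ⟨⟨union_subset h.1.1 (h.2.1.trans sdiff_subset), ?_⟩, subset_union_left, h.1.2⟩
    rw [card_union_of_disjoint hd, h.1.2, h.2.2]
  · rintro ⟨S, σ⟩ h
    simp only [mem_sigma, mem_powersetCard] at h ⊢
    refine ⟨⟨h.2.1.trans h.1.1, h.2.2⟩, sdiff_subset_sdiff h.1.1 (subset_refl _), ?_⟩
    rw [card_sdiff_of_subset h.2.1, h.1.2, h.2.2]; omega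
  · rintro ⟨σ, R⟩ h
    simp only [mem_sigma, mem_powersetCard] at h
    have hd : Disjoint σ R := disjoint_left.2 fun x hx hR => (mem_sdiff.1 (h.2.1 hR)).2 hx
    simp [union_sdiff_cancel_left hd]
  · rintro ⟨S, σ⟩ h
    simp only [mem_sigma, mem_powersetCard] at h
    simp [union_sdiff_of_subset h.2.1]
  · intros; rfl

/-- Localisation of a norm. -/
lemma avg_localise (hT : Uniform T N) (a b : ℕ) (F : Finset V → ℝ) :
    avg T a (fun σ => avg (link T σ) b (fun R => F (σ ∪ R))) = avg T (a + b) F := by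
  rw [avg_avg_link hT, avg_eq hT]
  simp only [sum_union_reindex, ← mul_sum]
  have hc : ((N.choose a : ℕ) : ℝ) * ((N - a).choose b : ℕ)
      = ((N.choose (a + b) : ℕ) : ℝ) * ((a + b).choose a : ℕ) := by
    have := Nat.choose_mul (n := N) (k := a + b) (s := a) (Nat.le_add_right a b)
    rw [Nat.add_sub_cancel_left] at this
    exact_mod_cast this.symm
  have h0 : (((a + b).choose a : ℕ) : ℝ) ≠ 0 := by
    exact_mod_cast (Nat.choose_pos (Nat.le_add_right a b)).ne'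
  rw [mul_assoc, hc, ← mul_assoc, mul_comm (((a + b).choose a : ℕ) : ℝ),
    mul_div_mul_right _ _ h0]

/-- Localisation at vertices. -/
lemma avg1_localise (hT : Uniform T N) (b : ℕ) (hb : b < N) (h : Finset V → ℝ) :
    avg1 T (fun u => avg (link T {u}) b (fun R => h (insert u R))) = avg T (b + 1) h := by
  have e := avg_localise hT 1 b h
  rw [Nat.add_comm 1 b] at e
  rw [← e, avg_eq hT, avg1_eq hT]
  simp only [powersetCard_one, sum_map, Function.Embedding.coeFn_mk, Nat.choose_one_right]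
  rfl

/-- Summing over the links of vertices does not change the average. -/
lemma avg1_avg_link (hT : Uniform T N) (b : ℕ) (hb : b < N) (h : Finset V → ℝ) :
    avg1 T (fun u => avg (link T {u}) b h) = avg T b h := by
  have e := avg_avg_link hT 1 b (fun _ R => h R)
  rw [avg_eq hT] at e
  simp only [powersetCard_one, sum_map, Function.Embedding.coeFn_mk, Nat.choose_one_right] at e
  rw [avg1_eq hT, avg_eq hT b, e]
  have key : ∀ t ∈ T, ∑ u ∈ t, ∑ R ∈ (t \ {u}).powersetCard b, h R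
      = (N - b : ℕ) * ∑ R ∈ t.powersetCard b, h R := by
    intro t ht
    calc ∑ u ∈ t, ∑ R ∈ (t \ {u}).powersetCard b, h R
        = ∑ R ∈ t.powersetCard b, ∑ _u ∈ t \ R, h R := by
          refine sum_comm' ?_
          intro u R
          simp only [mem_powersetCard, mem_sdiff, subset_sdiff, disjoint_singleton_right]
          tauto
      _ = _ := by
          rw [mul_sum]
          refine sum_congr rfl fun R hR => ?_
          obtain ⟨hs, hc⟩ := mem_powersetCard.1 hR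
          rw [sum_const, card_sdiff_of_subset hs, hT t ht, hc, nsmul_eq_mul]
  rw [sum_congr rfl key, ← mul_sum]
  have hc : (N : ℝ) * ((N - 1).choose b : ℕ) = ((N.choose b : ℕ) : ℝ) * (N - b : ℕ) := by
    have := Nat.choose_mul_succ_eq (N - 1) b
    rw [show N - 1 + 1 = N by omega] at this
    exact_mod_cast (mul_comm _ _).trans this
  have h0 : ((N - b : ℕ) : ℝ) ≠ 0 := by exact_mod_cast (Nat.sub_pos_of_lt hb).ne'
  rw [mul_assoc, hc, ← mul_assoc, mul_comm ((N - b : ℕ) : ℝ), mul_div_mul_right _ _ h0]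

/-- Symmetry of the random oriented edge. -/
lemma avg1_swap (hT : Uniform T N) (Φ : V → V → ℝ) :
    avg1 T (fun u => avg1 (link T {u}) (Φ u))
      = avg1 T (fun u => avg1 (link T {u}) (fun w => Φ w u)) := by
  have e : ∀ Ψ : V → V → ℝ, avg1 T (fun u => avg1 (link T {u}) (Ψ u))
      = (∑ t ∈ T, ∑ u ∈ t, ∑ w ∈ t \ {u}, Ψ u w) / ((T.card : ℝ) * N * (N - 1 : ℕ)) := by
    intro Ψ
    have e := avg_avg1_link hT 1 (fun s w => ∑ u ∈ s, Ψ u w)
    simp only [powersetCard_one, sum_map, Function.Embedding.coeFn_mk, sum_singleton,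
      Nat.choose_one_right] at e
    rw [← e, avg_eq hT, avg1_eq hT]
    simp [powersetCard_one, sum_map]
  rw [e Φ, e (fun u w => Φ w u)]
  congr 1
  refine sum_congr rfl fun t _ => ?_
  refine sum_comm' ?_
  intro u w
  simp only [mem_sdiff, mem_singleton]
  tauto

end Vale.P067.Local
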